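import Vale.Agent.H22.ST.Defs

/-!
# Basic facts about the data of the Steinitz construction
-/

set_option linter.unusedSectionVars false

noncomputable section

open Finset

namespace Vale.Agent.H22.ST

/-- `ℓ²`-norm of a function over a finite set -/
def nrm {κ : Type} (s : Finset κ) (u : κ → ℝ) : ℝ := Real.sqrt (∑ k ∈ s, (u k) ^ 2)

theorem nrm_nonneg {κ : Type} (s : Finset κ) (u : κ → ℝ) : 0 ≤ nrm s u := Real.sqrt_nonneg _

theorem nrm_sq {κ : Type} (s : Finset κ) (u : κ → ℝ) : (nrm s u) ^ 2 = ∑ k ∈ s, (u k) ^ 2 := by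
  unfold nrm
  exact Real.sq_sqrt (Finset.sum_nonneg fun _ _ => sq_nonneg _)

theorem nrm_add_le {κ : Type} (s : Finset κ) (u w : κ → ℝ) :
    nrm s (fun k => u k + w k) ≤ nrm s u + nrm s w := by
  have h1 : ∑ k ∈ s, u k * w k ≤ nrm s u * nrm s w := by
    unfold nrm
    exact Real.sum_mul_le_sqrt_mul_sqrt s u w
  have h2 := nrm_sq s u
  have h3 := nrm_sq s w
  have h4 := nrm_nonneg s u
  have h5 := nrm_nonneg s w
  have h6 : ∑ k ∈ s, (u k + w k) ^ 2
      = ∑ k ∈ s, (u k) ^ 2 + 2 * ∑ k ∈ s, u k * w k + ∑ k ∈ s, (w k) ^ 2 := by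
    rw [Finset.mul_sum, ← Finset.sum_add_distrib, ← Finset.sum_add_distrib]
    exact Finset.sum_congr rfl fun k _ => by ring
  have h7 : nrm s (fun k => u k + w k) = Real.sqrt (∑ k ∈ s, (u k + w k) ^ 2) := rfl
  rw [h7]
  apply Real.sqrt_le_iff.mpr
  constructor
  · positivity
  · rw [h6]
    nlinarith

theorem nrm_mono {κ : Type} (s : Finset κ) (u w : κ → ℝ) (h : ∀ k ∈ s, |u k| ≤ w k) :
    nrm s u ≤ nrm s w := by
  unfold nrm
  apply Real.sqrt_le_sqrt
  apply Finset.sum_le_sum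
  intro k hk
  have := h k hk
  have h0 := abs_nonneg (u k)
  rw [← sq_abs]
  nlinarith

theorem nrm_le_iff {κ : Type} (s : Finset κ) (u : κ → ℝ) {c : ℝ} (hc : 0 ≤ c) :
    nrm s u ≤ c ↔ ∑ k ∈ s, (u k) ^ 2 ≤ c ^ 2 := by
  unfold nrm
  rw [Real.sqrt_le_left hc]

theorem nrm_mul_left {κ : Type} (s : Finset κ) (u : κ → ℝ) {c : ℝ} (hc : 0 ≤ c) :
    nrm s (fun k => c * u k) = c * nrm s u := by
  unfold nrm
  have : ∑ k ∈ s, (c * u k) ^ 2 = c ^ 2 * ∑ k ∈ s, (u k) ^ 2 := by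
    rw [Finset.mul_sum]
    exact Finset.sum_congr rfl fun k _ => by ring
  rw [this, Real.sqrt_mul (sq_nonneg c), Real.sqrt_sq hc]

namespace Data

variable {ι : Type} [Fintype ι] [DecidableEq ι] {d : ℕ} (S : Data ι d)

theorem v_sq_le (i : ι) (k : Fin d) : (S.v i k) ^ 2 ≤ 1 :=
  le_trans (Finset.single_le_sum (f := fun k => (S.v i k) ^ 2)
    (fun _ _ => sq_nonneg _) (Finset.mem_univ k)) (S.norm_le i)

theorem thr_pos (j : ℕ) (k : Fin d) : 0 < S.thr j k := by
  unfold thr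
  positivity

theorem thr_le_one (j : ℕ) (k : Fin d) : S.thr j k ≤ 1 := by
  unfold thr
  exact pow_le_one₀ (by norm_num) (by norm_num)

theorem thr_of_le {j : ℕ} {k : Fin d} (h : j ≤ S.g k + S.a2) : S.thr j k = 1 := by
  unfold thr
  rw [Nat.sub_eq_zero_of_le h, pow_zero]

theorem thr_succ_le (j : ℕ) (k : Fin d) : S.thr (j + 1) k ≤ S.thr j k := by
  unfold thr
  apply pow_le_pow_of_le_one (by norm_num) (by norm_num)
  omega

theorem f_of_le {j : ℕ} {k : Fin d} (h : j ≤ S.g k + S.a2) (i : ι) : S.f j k i = S.v i k := by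
  unfold f
  rw [S.thr_of_le h, if_pos (S.v_sq_le i k)]

theorem hv_of_le {j : ℕ} {k : Fin d} (h : j ≤ S.g k + S.a2) (i : ι) : S.hv j k i = 0 := by
  unfold hv
  rw [S.thr_of_le h, if_pos (S.v_sq_le i k)]

theorem f_add_hv (j : ℕ) (k : Fin d) (i : ι) : S.f j k i + S.hv j k i = S.v i k := by
  unfold f hv
  split_ifs <;> simp

theorem hv_succ (j : ℕ) (k : Fin d) (i : ι) :
    S.hv (j + 1) k i = S.hv j k i + (S.f j k i - S.f (j + 1) k i) := by
  have h1 := S.f_add_hv j k i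
  have h2 := S.f_add_hv (j + 1) k i
  linarith

theorem f_sq_le_thr (j : ℕ) (k : Fin d) (i : ι) : (S.f j k i) ^ 2 ≤ S.thr j k := by
  unfold f
  split_ifs with h
  · exact h
  · have := S.thr_pos j k
    nlinarith

theorem f_sq_le_v_sq (j : ℕ) (k : Fin d) (i : ι) : (S.f j k i) ^ 2 ≤ (S.v i k) ^ 2 := by
  unfold f
  split_ifs with h
  · exact le_rfl
  · nlinarith [sq_nonneg (S.v i k)]

theorem f_succ_sq_le (j : ℕ) (k : Fin d) (i : ι) : (S.f (j + 1) k i) ^ 2 ≤ (S.f j k i) ^ 2 := by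
  unfold f
  have := S.thr_succ_le j k
  split_ifs with h1 h2
  · exact le_rfl
  · exact absurd (h1.trans this) h2
  · nlinarith [sq_nonneg (S.v i k)]
  · exact le_rfl

/-- newly heavy entries are large -/
theorem abs_sub_succ_le (j : ℕ) (k : Fin d) (i : ι) :
    |S.f j k i - S.f (j + 1) k i| * Real.sqrt (S.thr (j + 1) k) ≤ (S.f j k i) ^ 2 := by
  have ht := S.thr_succ_le j k
  have htp := S.thr_pos (j + 1) k
  unfold f
  split_ifs with h1 h2 h2
  · rw [sub_self, abs_zero, zero_mul]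
    exact sq_nonneg _
  · rw [sub_zero]
    have h3 : Real.sqrt (S.thr (j + 1) k) ≤ |S.v i k| := by
      rw [← Real.sqrt_sq_eq_abs]
      exact Real.sqrt_le_sqrt (le_of_lt (not_le.mp h2))
    calc |S.v i k| * Real.sqrt (S.thr (j + 1) k) ≤ |S.v i k| * |S.v i k| :=
          mul_le_mul_of_nonneg_left h3 (abs_nonneg _)
      _ = (S.v i k) ^ 2 := by rw [← sq_abs]; ring
  · exact absurd (h2.trans ht) h1
  · simp

theorem nonrich_iff (j : ℕ) (k : Fin d) : S.g k ≤ j + S.n ↔ (k : ℕ) < S.pj j := by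
  unfold pj
  have hsub : ∀ a b : Fin d, a ≤ b → S.g b ≤ j + S.n → S.g a ≤ j + S.n :=
    fun a b hab hb => (S.g_mono hab).trans hb
  constructor
  · intro hk
    have : (univ.filter (fun l : Fin d => l ≤ k)) ⊆
        univ.filter (fun l : Fin d => S.g l ≤ j + S.n) := by
      intro l hl
      rw [Finset.mem_filter] at hl ⊢
      exact ⟨hl.1, hsub l k hl.2 hk⟩
    have h2 := Finset.card_le_card this
    have h3 : (univ.filter (fun l : Fin d => l ≤ k)).card = (k : ℕ) + 1 := by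
      have : univ.filter (fun l : Fin d => l ≤ k) = Finset.Iic k := by
        ext l; simp
      rw [this, Fin.card_Iic]
    omega
  · intro hk
    by_contra hcon
    have : (univ.filter (fun l : Fin d => S.g l ≤ j + S.n)) ⊆
        univ.filter (fun l : Fin d => l < k) := by
      intro l hl
      rw [Finset.mem_filter] at hl ⊢
      refine ⟨hl.1, ?_⟩
      by_contra hlk
      exact hcon (hsub k l (not_lt.mp hlk) hl.2)
    have h2 := Finset.card_le_card this
    have h3 : (univ.filter (fun l : Fin d => l < k)).card = (k : ℕ) := by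
      have : univ.filter (fun l : Fin d => l < k) = Finset.Iio k := by
        ext l; simp
      rw [this, Fin.card_Iio]
    omega

theorem pj_le (j : ℕ) : S.pj j ≤ d := by
  unfold pj
  calc _ ≤ (univ : Finset (Fin d)).card := Finset.card_filter_le _ _
    _ = d := by simp

theorem dg_nonneg (x : ℕ) : 0 ≤ S.dg x := by
  unfold dg
  positivity

/-- sums of energies over a group -/
theorem sum_En_le {j : ℕ} {A : Finset ι} (h2 : S.I2 j A) {x : ℕ} (hx : x ≤ j)
    (hY : 0 ≤ S.Yb (j - x)) :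
    ∑ k ∈ univ.filter (fun k : Fin d => S.g k = x), S.En j k A ≤ S.dg x * S.Yb (j - x) := by
  have h := h2 x hx
  have hcs := Real.sum_mul_le_sqrt_mul_sqrt (univ.filter (fun k : Fin d => S.g k = x))
    (fun _ => (1 : ℝ)) (fun k => S.En j k A)
  simp only [one_mul, one_pow, Finset.sum_const, nsmul_eq_mul, mul_one] at hcs
  refine hcs.trans ?_
  have h3 : Real.sqrt (∑ k ∈ univ.filter (fun k : Fin d => S.g k = x), (S.En j k A) ^ 2)
      ≤ Real.sqrt (S.dg x) * S.Yb (j - x) := by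
    calc _ ≤ Real.sqrt (S.dg x * (S.Yb (j - x)) ^ 2) := Real.sqrt_le_sqrt h
      _ = _ := by rw [Real.sqrt_mul (S.dg_nonneg x), Real.sqrt_sq hY]
  have h4 : (((univ.filter (fun k : Fin d => S.g k = x)).card : ℕ) : ℝ) = S.dg x := rfl
  rw [h4]
  calc Real.sqrt (S.dg x) * _ ≤ Real.sqrt (S.dg x) * (Real.sqrt (S.dg x) * S.Yb (j - x)) :=
        mul_le_mul_of_nonneg_left h3 (Real.sqrt_nonneg _)
    _ = S.dg x * S.Yb (j - x) := by
        rw [← mul_assoc, Real.mul_self_sqrt (S.dg_nonneg x)]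

theorem En_nonneg (j : ℕ) (k : Fin d) (A : Finset ι) : 0 ≤ S.En j k A :=
  Finset.sum_nonneg fun _ _ => sq_nonneg _

end Data

end Vale.Agent.H22.ST
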