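import Mathlib

/-!
# Steinitz orderings in Euclidean space: definitions for the multi-scale argument (P262)

Everything is in coordinates w.r.t. an eigenbasis of the Gram matrix `∑ v_i v_i^T`.
-/

noncomputable section

open Finset

namespace Vale.Agent.H22.ST

/-- The fixed data: a finite zero-sum family of vectors of `ℝ^d` of norm at most one whose Gram
matrix is diagonal, together with the numerical parameters of the construction. -/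
structure Data (ι : Type) [Fintype ι] (d : ℕ) where
  /-- the vectors, `v i k` is the `k`-th coordinate of the `i`-th vector -/
  v : ι → Fin d → ℝ
  /-- critical level of direction `k` -/
  g : Fin d → ℕ
  /-- parameters -/
  n : ℕ
  a2 : ℕ
  c' : ℝ
  Γ : ℝ
  K : ℝ
  R : ℝ
  Yinf : ℝ
  norm_le : ∀ i, ∑ k, (v i k) ^ 2 ≤ 1
  sum_zero : ∀ k, ∑ i, v i k = 0
  gram : ∀ k l, k ≠ l → ∑ i, v i k * v i l = 0
  g_mono : Monotone g
  g_lt : ∀ k j, j < g k → c' ≤ (∑ i, (v i k) ^ 2) / 2 ^ j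
  g_le : ∀ k, (∑ i, (v i k) ^ 2) / 2 ^ (g k) < c'
  d_pos : 1 ≤ d
  c'_ge : 1 ≤ c'
  d_le_c' : (d : ℝ) ≤ c'
  a2_pos : 2 ≤ a2
  Γ_ge : 12.7 + (1 / 2) * Real.log d ≤ Γ
  K_eq : K = 10 * Γ * (n + a2 : ℕ)
  a2_spec : 3 * c' * (0.8 : ℝ) ^ a2 ≤ 1
  R_eq : R = Real.sqrt d * (2 * Real.sqrt Γ + 2 * Yinf)
  Yinf_eq : Yinf = ((n + a2 : ℕ) : ℝ) * Real.sqrt (Γ * (n + a2 : ℕ)) + 2
    + 17 * Real.sqrt (Γ * (K + 1)) + 20 * (K + 1)
  cond_c' : 7 * d * (6 * R + 2 * Real.sqrt (2 * Γ * d)) ≤ Real.sqrt c'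
  cond_S1 : ((n + a2 : ℕ) : ℝ) * Real.sqrt (2 * R ^ 2 * (3 * c' + K) / (c' * 2 ^ n)) ≤ 1
  cond_S2 : 10 * Real.sqrt (2 * R ^ 2 * (K + 1) / (c' * 2 ^ n)) ≤ 1

namespace Data

variable {ι : Type} [Fintype ι] [DecidableEq ι] {d : ℕ} (S : Data ι d)

/-- eigenvalues of the Gram matrix -/
def lam (k : Fin d) : ℝ := ∑ i, (S.v i k) ^ 2

/-- number of middle levels of a direction -/
def Nm : ℕ := S.n + S.a2

/-- size of the group of directions with critical level `x` -/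
def dg (x : ℕ) : ℝ := ((univ.filter (fun k : Fin d => S.g k = x)).card : ℝ)

/-- threshold (for squares) below which an entry is light -/
def thr (j : ℕ) (k : Fin d) : ℝ := (0.85 ^ 2 : ℝ) ^ (j - (S.g k + S.a2))

/-- light part of the entry -/
def f (j : ℕ) (k : Fin d) (i : ι) : ℝ := if (S.v i k) ^ 2 ≤ S.thr j k then S.v i k else 0

/-- heavy part of the entry -/
def hv (j : ℕ) (k : Fin d) (i : ι) : ℝ := if (S.v i k) ^ 2 ≤ S.thr j k then 0 else S.v i k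

/-- light energy of the block `A` in direction `k` at level `j` -/
def En (j : ℕ) (k : Fin d) (A : Finset ι) : ℝ := ∑ i ∈ A, (S.f j k i) ^ 2

/-- partial sum in direction `k` -/
def D (k : Fin d) (Q : Finset ι) : ℝ := ∑ i ∈ Q, S.v i k

/-- energy bound at age `a` -/
def Yb (a : ℕ) : ℝ :=
  if a < S.a2 then 3 * S.c' * 0.8 ^ a + S.K else (S.K + 1) * 0.8 ^ (a - S.a2)

/-- total inverse richness of the rich directions at level `j` -/
def M (j : ℕ) : ℝ := ∑ k ∈ univ.filter (fun k : Fin d => j < S.g k), 2 ^ j / S.lam k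

/-- bound for the bias at level `j` -/
def B (j : ℕ) : ℝ := 2 * S.R * S.M j

/-- relative error of the Gram matrix of a block at level `j` -/
def rho (j : ℕ) : ℝ := ∑ i ∈ range j, (6 * S.R * S.M i + 2 * Real.sqrt (2 * S.Γ * d * S.M i))

/-- increments of the accumulated innovations, `s` levels after leaving the rich set -/
def inc (s : ℕ) : ℝ :=
  if s = 0 then 0
  else if s ≤ S.Nm then
    Real.sqrt (S.Γ * S.Nm) + Real.sqrt (2 * S.R ^ 2 * (3 * S.c' + S.K) / (S.c' * 2 ^ S.n))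
  else
    Real.sqrt (S.Γ * (S.K + 1)) * 0.94 ^ (s - S.Nm - 1)
      + Real.sqrt (2 * S.R ^ 2 * (S.K + 1) / (S.c' * 2 ^ S.n)) * 0.9 ^ (s - S.Nm - 1)
      + (S.K + 1) / 0.85 * (0.8 / 0.85) ^ (s - S.Nm - 1)

/-- accumulated innovations -/
def yb (s : ℕ) : ℝ := ∑ t ∈ range s, S.inc t

/-- (I1) the Gram matrix of the block is close to the expected one on the rich directions -/
def I1 (j : ℕ) (A : Finset ι) : Prop :=
  ∀ y : Fin d → ℝ, (∀ k, ¬ j < S.g k → y k = 0) →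
    |∑ i ∈ A, (∑ k, y k * S.v i k) ^ 2 - ∑ k, S.lam k / 2 ^ j * (y k) ^ 2|
      ≤ S.rho j * ∑ k, S.lam k / 2 ^ j * (y k) ^ 2

/-- (I2) energies of the non-rich directions -/
def I2 (j : ℕ) (A : Finset ι) : Prop :=
  ∀ x ≤ j, ∑ k ∈ univ.filter (fun k : Fin d => S.g k = x), (S.En j k A) ^ 2
    ≤ S.dg x * (S.Yb (j - x)) ^ 2

/-- (I3) control of the two boundary sums of the block -/
def I3 (j : ℕ) (P A : Finset ι) : Prop :=
  ∃ Xl Xr Y κ : Fin d → ℝ,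
    (∀ k, 0 ≤ Y k) ∧
    (∀ k, |∑ i ∈ P, S.f j k i + κ k| ≤ |Xl k| + |Xr k| + Y k) ∧
    (∀ k, |∑ i ∈ P ∪ A, S.f j k i + κ k| ≤ |Xl k| + |Xr k| + Y k) ∧
    (∀ k, |∑ i ∈ P, S.hv j k i - κ k| + ∑ i ∈ A, |S.hv j k i| ≤ Y k) ∧
    (∀ k, j + S.n < S.g k → Xl k = S.D k P ∧ Xr k = S.D k (P ∪ A) ∧ Y k = 0 ∧ κ k = 0) ∧
    (∀ b : ℕ, b ≤ d → (∀ k : Fin d, S.g k ≤ j + S.n → (k : ℕ) < b) →
      ∑ k ∈ univ.filter (fun k : Fin d => (k : ℕ) < b), (Xl k) ^ 2 ≤ S.Γ * b) ∧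
    (∀ b : ℕ, b ≤ d → (∀ k : Fin d, S.g k ≤ j + S.n → (k : ℕ) < b) →
      ∑ k ∈ univ.filter (fun k : Fin d => (k : ℕ) < b), (Xr k) ^ 2 ≤ S.Γ * b) ∧
    (∀ x, ∑ k ∈ univ.filter (fun k : Fin d => S.g k = x), (Y k) ^ 2
      ≤ S.dg x * (S.yb (j + S.n + 1 - x)) ^ 2)

/-- the full invariant of a block `A` with set of predecessors `P` at level `j` -/
def Inv (j : ℕ) (P A : Finset ι) : Prop :=
  Disjoint P A ∧ S.I1 j A ∧ S.I2 j A ∧ S.I3 j P A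

/-- number of non-rich directions at level `j` -/
def pj (j : ℕ) : ℕ := (univ.filter (fun k : Fin d => S.g k ≤ j + S.n)).card

/-- the estimates for the rounding errors `δ` on the block `A` at level `j` -/
structure Good (j : ℕ) (A : Finset ι) (δ : ι → ℝ) : Prop where
  r1 : ∀ b : ℕ, b ≤ d → S.pj j ≤ b →
    ∑ k ∈ univ.filter (fun k : Fin d => j + S.n < S.g k ∧ (k : ℕ) < b),
      (∑ i ∈ A, δ i * S.v i k) ^ 2 ≤ S.Γ * ((b : ℝ) - S.pj j)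
  r2 : ∀ x, x ≤ j + S.n → j < x + S.a2 →
    ∑ k ∈ univ.filter (fun k : Fin d => S.g k = x), (∑ i ∈ A, δ i * S.v i k) ^ 2
      ≤ S.Γ * S.dg x * S.Nm
  r3 : ∀ x, x + S.a2 ≤ j →
    ∑ k ∈ univ.filter (fun k : Fin d => S.g k = x), (∑ i ∈ A, δ i * S.f j k i) ^ 2
      ≤ S.Γ * S.dg x * (S.K + 1) * (0.94 ^ 2 : ℝ) ^ (j - (x + S.a2))
  r4 : ∀ x, x ≤ j → j < x + S.a2 →
    ∑ k ∈ univ.filter (fun k : Fin d => S.g k = x), (∑ i ∈ A, δ i * (S.f j k i) ^ 2) ^ 2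
      ≤ S.Γ * S.dg x * S.Nm * S.Yb (j - x)
  r5 : ∀ x, x + S.a2 ≤ j →
    ∑ k ∈ univ.filter (fun k : Fin d => S.g k = x), (∑ i ∈ A, δ i * (S.f j k i) ^ 2) ^ 2
      ≤ S.Γ * S.dg x * (S.K + 1) * (0.64 : ℝ) ^ (j - (x + S.a2))
  r6 : ∑ k ∈ univ.filter (fun k : Fin d => j < S.g k),
      ∑ l ∈ univ.filter (fun l : Fin d => j < S.g l),
        (∑ i ∈ A, δ i * (S.v i k * S.v i l)) ^ 2 / ((S.lam k / 2 ^ j) * (S.lam l / 2 ^ j))
      ≤ 2 * S.Γ * d * S.M j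

/-- the estimates for the bias `β` on the block `A` at level `j` (target `a`) -/
structure GoodBias (j : ℕ) (A : Finset ι) (a : Fin d → ℝ) (β : ι → ℝ) : Prop where
  b1 : ∀ k, j + S.n < S.g k → ∑ i ∈ A, β i * S.v i k = - a k
  b2 : ∀ k, j < S.g k → S.g k ≤ j + S.n → ∑ i ∈ A, β i * S.v i k = 0
  b3 : ∀ i, |β i| ≤ S.B j
  b4 : ∑ i ∈ A, (β i) ^ 2 ≤ 2 * S.R ^ 2 / (S.c' * 2 ^ S.n)

end Data

end Vale.Agent.H22.ST
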