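import Mathlib

/-!
# Gram–Schmidt-walk rounding with prescribed quadratic tests (L1 of the Steinitz project, P262)
-/

set_option linter.unusedSectionVars false

noncomputable section

open Finset

namespace Vale.Agent.H22.ST

section gsw

/-- moving in a direction until the boundary of the cube is hit -/
theorem gsw_hit {ι : Type*} (G : Finset ι) (p : ι) (hp : p ∈ G) (z u : ι → ℝ)
    (hz : ∀ i ∈ G, |z i| < 1) (hu : |u p| = 1) :
    ∃ δ : ℝ, 0 ≤ δ ∧ (∀ i ∈ G, |z i + δ * u i| ≤ 1) ∧ ∃ i ∈ G, |z i + δ * u i| = 1 := by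
  have hG : G.Nonempty := ⟨p, hp⟩
  let m : ℝ → ℝ := fun δ => G.sup' hG (fun i => |z i + δ * u i|)
  have hc : Continuous m := by
    apply Continuous.finset_sup'_apply hG
    intro i _
    fun_prop
  have h0 : m 0 ≤ 1 := by
    apply Finset.sup'_le
    intro i hi
    have := hz i hi
    simpa using this.le
  have h2 : 1 ≤ m 2 := by
    refine le_trans ?_ (Finset.le_sup' (fun i => |z i + 2 * u i|) hp)
    have h3 := hz p hp
    have h4 : |2 * u p| ≤ |z p + 2 * u p| + |z p| := by
      have : 2 * u p = (z p + 2 * u p) - z p := by ring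
      calc |2 * u p| = |(z p + 2 * u p) - z p| := by rw [← this]
        _ ≤ _ := abs_sub _ _
    rw [abs_mul, hu] at h4
    norm_num at h4
    linarith
  obtain ⟨δ, hδ, hm⟩ := intermediate_value_Icc (by norm_num : (0 : ℝ) ≤ 2)
    hc.continuousOn ⟨h0, h2⟩
  refine ⟨δ, hδ.1, ?_, ?_⟩
  · intro i hi
    rw [← hm]
    exact Finset.le_sup' (fun i => |z i + δ * u i|) hi
  · obtain ⟨i, hi, h⟩ := Finset.exists_mem_eq_sup' hG (fun i => |z i + δ * u i|)
    exact ⟨i, hi, by rw [← h]; exact hm⟩

variable {E : Type*} [NormedAddCommGroup E] [InnerProductSpace ℝ E] [FiniteDimensional ℝ E]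
variable {M : Type*} [Fintype M]

/-- sum of squared norms of projections of the tests -/
def gswPi (w : M → E) (V : Submodule ℝ E) : ℝ := ∑ m, ‖V.starProjection (w m)‖ ^ 2

/-- sum of squared inner products with the tests -/
def gswQ (w : M → E) (e : E) : ℝ := ∑ m, (inner ℝ (w m) e) ^ 2

theorem gsw_proj (U V : Submodule ℝ E) (hUV : U ≤ V) (w b : E) (hbV : b ∈ V)
    (hbU : ∀ y ∈ U, inner ℝ y b = 0) (hb : ‖b‖ ≤ 1) :
    (inner ℝ w b) ^ 2 ≤ ‖V.starProjection w‖ ^ 2 - ‖U.starProjection w‖ ^ 2 := by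
  have hU : U.starProjection w ∈ U := by
    exact U.starProjection_apply_mem w
  have h1 : inner ℝ w b = inner ℝ (V.starProjection w - U.starProjection w) b := by
    have e1 : inner ℝ (w - V.starProjection w) b = 0 := V.starProjection_inner_eq_zero w b hbV
    have e2 : inner ℝ (U.starProjection w) b = 0 := hbU _ hU
    rw [inner_sub_left] at e1 ⊢
    rw [e2]
    linarith
  have h2 : inner ℝ (U.starProjection w) (V.starProjection w - U.starProjection w) = 0 := by
    have e1 : inner ℝ (w - V.starProjection w) (U.starProjection w) = 0 :=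
      V.starProjection_inner_eq_zero w _ (hUV hU)
    have e2 : inner ℝ (w - U.starProjection w) (U.starProjection w) = 0 :=
      U.starProjection_inner_eq_zero w _ hU
    rw [real_inner_comm]
    rw [inner_sub_left] at e1 e2 ⊢
    linarith
  have h3 : ‖V.starProjection w‖ ^ 2 = ‖U.starProjection w‖ ^ 2
      + ‖V.starProjection w - U.starProjection w‖ ^ 2 := by
    have : V.starProjection w = U.starProjection w
        + (V.starProjection w - U.starProjection w) := by abel
    conv_lhs => rw [this]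
    rw [norm_add_sq_real, h2]
    ring
  rw [h1, h3]
  have h4 := abs_real_inner_le_norm (V.starProjection w - U.starProjection w) b
  have h5 : |inner ℝ (V.starProjection w - U.starProjection w) b|
      ≤ ‖V.starProjection w - U.starProjection w‖ := by
    refine h4.trans ?_
    have := norm_nonneg (V.starProjection w - U.starProjection w)
    nlinarith
  have h6 := sq_le_sq' (abs_le.mp h5).1 (abs_le.mp h5).2
  linarith

theorem gswPi_mono (w : M → E) {U V : Submodule ℝ E} (h : U ≤ V) : gswPi w U ≤ gswPi w V := by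
  unfold gswPi
  apply Finset.sum_le_sum
  intro m _
  have := gsw_proj U V h (w m) 0 V.zero_mem (by simp) (by simp)
  simp at this
  exact this

theorem gswPi_nonneg (w : M → E) (U : Submodule ℝ E) : 0 ≤ gswPi w U :=
  Finset.sum_nonneg fun _ _ => by positivity

theorem gswPi_le (w : M → E) (U : Submodule ℝ E) : gswPi w U ≤ ∑ m, ‖w m‖ ^ 2 := by
  unfold gswPi
  apply Finset.sum_le_sum
  intro m _
  have := U.norm_starProjection_apply_le (w m)
  have h0 := norm_nonneg (U.starProjection (w m))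
  nlinarith

/-- the quadratic growth of the tests along a Gram–Schmidt direction -/
theorem gswQ_le (w : M → E) {U V : Submodule ℝ E} (h : U ≤ V) (b : E) (hbV : b ∈ V)
    (hbU : ∀ y ∈ U, inner ℝ y b = 0) (hb : ‖b‖ ≤ 1) :
    gswQ w b ≤ gswPi w V - gswPi w U := by
  unfold gswQ gswPi
  rw [← Finset.sum_sub_distrib]
  apply Finset.sum_le_sum
  intro m _
  exact gsw_proj U V h (w m) b hbV hbU hb

theorem gswQ_add_smul (w : M → E) (e b : E) (δ : ℝ) :
    gswQ w (e + δ • b) = gswQ w e + δ * (2 * ∑ m, inner ℝ (w m) e * inner ℝ (w m) b)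
      + δ ^ 2 * gswQ w b := by
  unfold gswQ
  rw [Finset.mul_sum, Finset.mul_sum, Finset.mul_sum, ← Finset.sum_add_distrib,
    ← Finset.sum_add_distrib]
  apply Finset.sum_congr rfl
  intro m _
  rw [inner_add_right, inner_smul_right]
  ring

variable {ι : Type*} [DecidableEq ι]

/-- span of the vectors of a finite set -/
def gswU (φ : ι → E) (F : Finset ι) : Submodule ℝ E := Submodule.span ℝ (φ '' (F : Set ι))

theorem gswU_mono (φ : ι → E) {F G : Finset ι} (h : F ⊆ G) : gswU φ F ≤ gswU φ G :=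
  Submodule.span_mono (Set.image_mono (by exact_mod_cast h))

theorem mem_gswU (φ : ι → E) {F : Finset ι} {i : ι} (h : i ∈ F) : φ i ∈ gswU φ F :=
  Submodule.subset_span ⟨i, by exact_mod_cast h, rfl⟩

theorem gswU_le (φ : ι → E) {F : Finset ι} {V : Submodule ℝ E} (h : ∀ i ∈ F, φ i ∈ V) :
    gswU φ F ≤ V := by
  apply Submodule.span_le.mpr
  rintro _ ⟨i, hi, rfl⟩
  exact h i (by exact_mod_cast hi)

/-- coefficients of the Gram–Schmidt direction -/
theorem gsw_dir (φ : ι → E) (F : Finset ι) (p : ι) (hp : p ∉ F) :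
    ∃ u : ι → ℝ, u p = 1 ∧ (∀ y ∈ gswU φ F, inner ℝ y (∑ i ∈ insert p F, u i • φ i) = 0) ∧
      ‖∑ i ∈ insert p F, u i • φ i‖ ≤ ‖φ p‖ := by
  have hmem : (gswU φ F).starProjection (φ p) ∈ gswU φ F := by
    exact (gswU φ F).starProjection_apply_mem (φ p)
  obtain ⟨c, hc⟩ := (Submodule.mem_span_image_finset_iff_exists_fun ℝ).mp hmem
  let u : ι → ℝ := fun i => if h : i ∈ F then - c ⟨i, h⟩ else 1
  have hup : u p = 1 := by simp [u, hp]
  have hsum : ∑ i ∈ insert p F, u i • φ i = φ p - (gswU φ F).starProjection (φ p) := by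
    rw [Finset.sum_insert hp, hup, one_smul]
    have h2 : ∑ i ∈ F, u i • φ i = - ∑ i : F, c i • φ i := by
      rw [← Finset.sum_coe_sort F, ← Finset.sum_neg_distrib]
      apply Finset.sum_congr rfl
      intro i _
      have : u (i : ι) = - c i := by simp [u]
      rw [this, neg_smul]
    rw [h2, hc]
    abel
  refine ⟨u, hup, ?_, ?_⟩
  · intro y hy
    rw [hsum, real_inner_comm]
    exact (gswU φ F).starProjection_inner_eq_zero (φ p) y hy
  · rw [hsum]
    have h0 : inner ℝ (φ p - (gswU φ F).starProjection (φ p))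
        ((gswU φ F).starProjection (φ p)) = 0 :=
      (gswU φ F).starProjection_inner_eq_zero (φ p) _ hmem
    have h1 : ‖φ p‖ ^ 2 = ‖φ p - (gswU φ F).starProjection (φ p)‖ ^ 2
        + ‖(gswU φ F).starProjection (φ p)‖ ^ 2 := by
      have : φ p = (φ p - (gswU φ F).starProjection (φ p))
        + (gswU φ F).starProjection (φ p) := by abel
      conv_lhs => rw [this]
      rw [norm_add_sq_real, h0]
      ring
    have h2 : ‖φ p - (gswU φ F).starProjection (φ p)‖ ^ 2 ≤ ‖φ p‖ ^ 2 := by
      rw [h1]; nlinarith [sq_nonneg ‖(gswU φ F).starProjection (φ p)‖]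
    exact (sq_le_sq₀ (norm_nonneg _) (norm_nonneg _)).mp h2

/-- the statement of one stage of the walk -/
def GswStmt (φ : ι → E) (w : M → E) (F : Finset ι) (p : ι) (V : Submodule ℝ E) (z : ι → ℝ)
    (e : E) : Prop :=
  ∃ ζ : ι → ℝ, (∀ i ∈ insert p F, ζ i = 1 ∨ ζ i = -1) ∧
    gswQ w (e + ∑ i ∈ insert p F, (ζ i - z i) • φ i)
      ≤ gswQ w e + (z p) ^ 2 * gswPi w (gswU φ F) + (1 - (z p) ^ 2) * gswPi w V

/-- a stage with a frozen coordinate -/
theorem gsw_frozen (φ : ι → E) (w : M → E) (F : Finset ι) (p : ι) (hp : p ∉ F)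
    (V : Submodule ℝ E) (z : ι → ℝ) (e : E)
    (hV : ∀ i ∈ insert p F, φ i ∈ V) (hz : ∀ i ∈ insert p F, |z i| ≤ 1)
    (ih : ∀ (F' : Finset ι) (p' : ι) (V' : Submodule ℝ E), F'.card < F.card → p' ∉ F' →
      (∀ i ∈ insert p' F', φ i ∈ V') → (∀ i ∈ insert p' F', |z i| ≤ 1) →
      GswStmt φ w F' p' V' z e)
    (hfr : ∃ i ∈ insert p F, |z i| = 1) : GswStmt φ w F p V z e := by
  obtain ⟨i, hi, hzi⟩ := hfr
  have hzi' : z i = 1 ∨ z i = -1 := eq_or_eq_neg_of_abs_eq hzi
  rw [Finset.mem_insert] at hi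
  rcases hi with rfl | hiF
  · -- the pivot is frozen
    have hz2 : (z i) ^ 2 = 1 := by rw [← sq_abs, hzi]; norm_num
    rcases F.eq_empty_or_nonempty with hF | ⟨p', hp'⟩
    · subst hF
      refine ⟨z, by simpa using hzi', ?_⟩
      simp only [sub_self, zero_smul, Finset.sum_const_zero, add_zero, hz2]
      have := gswPi_nonneg w (gswU φ (∅ : Finset ι))
      linarith
    · have hins : insert p' (F.erase p') = F := Finset.insert_erase hp'
      obtain ⟨ζ, h1, h2⟩ := ih (F.erase p') p' (gswU φ F) (Finset.card_erase_lt_of_mem hp')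
        (Finset.notMem_erase _ _) (by rw [hins]; exact fun j hj => mem_gswU φ hj)
        (by rw [hins]; exact fun j hj => hz j (Finset.mem_insert_of_mem hj))
      rw [hins] at h1 h2
      refine ⟨Function.update ζ i (z i), ?_, ?_⟩
      · intro j hj
        rw [Finset.mem_insert] at hj
        rcases hj with rfl | hj
        · simpa using hzi'
        · have : j ≠ i := fun h => hp (h ▸ hj)
          rw [Function.update_of_ne this]
          exact h1 j hj
      · rw [Finset.sum_insert hp, Function.update_self, sub_self, zero_smul, zero_add]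
        have h3 : ∑ j ∈ F, (Function.update ζ i (z i) j - z j) • φ j
            = ∑ j ∈ F, (ζ j - z j) • φ j := by
          apply Finset.sum_congr rfl
          intro j hj
          have : j ≠ i := fun h => hp (h ▸ hj)
          rw [Function.update_of_ne this]
        rw [h3, hz2]
        have h4 : gswPi w (gswU φ (F.erase p')) ≤ gswPi w (gswU φ F) :=
          gswPi_mono w (gswU_mono φ (Finset.erase_subset _ _))
        have h5 : 0 ≤ (z p') ^ 2 := sq_nonneg _
        nlinarith
  · -- another coordinate is frozen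
    have hip : i ≠ p := fun h => hp (h ▸ hiF)
    have hsub : ∀ j ∈ insert p (F.erase i), j ∈ insert p F := by
      intro j hj
      rw [Finset.mem_insert] at hj ⊢
      rcases hj with h | h
      · exact Or.inl h
      · exact Or.inr (Finset.mem_of_mem_erase h)
    obtain ⟨ζ, h1, h2⟩ := ih (F.erase i) p V (Finset.card_erase_lt_of_mem hiF)
      (fun h => hp (Finset.mem_of_mem_erase h)) (fun j hj => hV j (hsub j hj))
      (fun j hj => hz j (hsub j hj))
    refine ⟨Function.update ζ i (z i), ?_, ?_⟩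
    · intro j hj
      by_cases hji : j = i
      · subst hji
        simpa using hzi'
      · rw [Function.update_of_ne hji]
        apply h1
        rw [Finset.mem_insert] at hj ⊢
        rcases hj with h | h
        · exact Or.inl h
        · exact Or.inr (Finset.mem_erase.mpr ⟨hji, h⟩)
    · have hins : insert p F = insert i (insert p (F.erase i)) := by
        rw [Finset.insert_comm, Finset.insert_erase hiF]
      have hni : i ∉ insert p (F.erase i) := by
        rw [Finset.mem_insert]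
        rintro (h | h)
        · exact hip h
        · exact Finset.notMem_erase _ _ h
      rw [hins, Finset.sum_insert hni, Function.update_self, sub_self, zero_smul, zero_add]
      have h3 : ∑ j ∈ insert p (F.erase i), (Function.update ζ i (z i) j - z j) • φ j
          = ∑ j ∈ insert p (F.erase i), (ζ j - z j) • φ j := by
        apply Finset.sum_congr rfl
        intro j hj
        have : j ≠ i := fun h => hni (h ▸ hj)
        rw [Function.update_of_ne this]
      rw [h3]
      have h4 : gswPi w (gswU φ (F.erase i)) ≤ gswPi w (gswU φ F) :=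
        gswPi_mono w (gswU_mono φ (Finset.erase_subset _ _))
      have h5 : 0 ≤ (z p) ^ 2 := sq_nonneg _
      nlinarith

/-- the induction of the Gram–Schmidt walk -/
theorem gsw_main (φ : ι → E) (w : M → E) (hφ : ∀ i, ‖φ i‖ ≤ 1) (n : ℕ) :
    ∀ (F : Finset ι) (p : ι) (V : Submodule ℝ E) (z : ι → ℝ) (e : E), F.card = n → p ∉ F →
      (∀ i ∈ insert p F, φ i ∈ V) → (∀ i ∈ insert p F, |z i| ≤ 1) →
      GswStmt φ w F p V z e := by
  induction n using Nat.strong_induction_on with
  | _ n ih =>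
  intro F p V z e hn hp hV hz
  by_cases hfr : ∃ i ∈ insert p F, |z i| = 1
  · exact gsw_frozen φ w F p hp V z e hV hz
      (fun F' p' V' hc hp' hV' hz' => ih F'.card (by omega) F' p' V' z e rfl hp' hV' hz') hfr
  · push Not at hfr
    have hz1 : ∀ i ∈ insert p F, |z i| < 1 := fun i hi => lt_of_le_of_ne (hz i hi) (hfr i hi)
    obtain ⟨u, hup, hbU, hbn⟩ := gsw_dir φ F p hp
    set b : E := ∑ i ∈ insert p F, u i • φ i with hb
    have hbV : b ∈ V := Submodule.sum_mem _ fun i hi => V.smul_mem _ (hV i hi)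
    have hUV : gswU φ F ≤ V := gswU_le φ fun i hi => hV i (Finset.mem_insert_of_mem hi)
    have hc2 : gswQ w b ≤ gswPi w V - gswPi w (gswU φ F) :=
      gswQ_le w hUV b hbV hbU (hbn.trans (hφ p))
    set c1 : ℝ := 2 * (∑ m, inner ℝ (w m) e * inner ℝ (w m) b)
      + 2 * z p * (gswPi w (gswU φ F) - gswPi w V) with hc1
    -- choose the sign
    obtain ⟨s, hs, hsc⟩ : ∃ s : ℝ, |s| = 1 ∧ s * c1 ≤ 0 := by
      rcases le_total c1 0 with h | h
      · exact ⟨1, by norm_num, by linarith⟩
      · exact ⟨-1, by norm_num, by linarith⟩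
    obtain ⟨δ, hδ0, hδ1, hδ2⟩ := gsw_hit (insert p F) p (Finset.mem_insert_self _ _) z
      (fun i => s * u i) hz1 (by rw [hup, mul_one, hs])
    have hstep := gsw_frozen φ w F p hp V (fun i => z i + δ * (s * u i)) (e + (δ * s) • b)
      hV hδ1
      (fun F' p' V' hc hp' hV' hz' => ih F'.card (by omega) F' p' V' _ _ rfl hp' hV' hz') hδ2
    obtain ⟨ζ, h1, h2⟩ := hstep
    refine ⟨ζ, h1, ?_⟩
    have hsum : e + (δ * s) • b + ∑ i ∈ insert p F, (ζ i - (z i + δ * (s * u i))) • φ i
        = e + ∑ i ∈ insert p F, (ζ i - z i) • φ i := by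
      rw [hb, Finset.smul_sum, add_assoc, ← Finset.sum_add_distrib]
      congr 1
      apply Finset.sum_congr rfl
      intro i _
      rw [smul_smul, ← add_smul]
      congr 1
      ring
    rw [hsum] at h2
    refine h2.trans ?_
    rw [gswQ_add_smul]
    simp only [hup, mul_one]
    have hs2 : s ^ 2 = 1 := by rw [← sq_abs, hs]; norm_num
    have h5 : δ * (s * c1) ≤ 0 := mul_nonpos_of_nonneg_of_nonpos hδ0 hsc
    have h6 : δ ^ 2 * (gswQ w b - (gswPi w V - gswPi w (gswU φ F))) ≤ 0 :=
      mul_nonpos_of_nonneg_of_nonpos (sq_nonneg _) (by linarith)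
    have h7 : gswQ w e + δ * s * (2 * ∑ m, inner ℝ (w m) e * inner ℝ (w m) b)
        + (δ * s) ^ 2 * gswQ w b + (z p + δ * s) ^ 2 * gswPi w (gswU φ F)
        + (1 - (z p + δ * s) ^ 2) * gswPi w V
        = gswQ w e + (z p) ^ 2 * gswPi w (gswU φ F) + (1 - (z p) ^ 2) * gswPi w V
          + δ * (s * c1) + (δ * s) ^ 2 * (gswQ w b - (gswPi w V - gswPi w (gswU φ F))) := by
      rw [hc1]; ring
    rw [h7, mul_pow, hs2, mul_one]
    linarith

/-- Gram–Schmidt walk with quadratic tests, signed version -/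
theorem gsw_signs (φ : ι → E) (w : M → E) (hφ : ∀ i, ‖φ i‖ ≤ 1) (A : Finset ι) (z : ι → ℝ)
    (hz : ∀ i ∈ A, |z i| ≤ 1) :
    ∃ ζ : ι → ℝ, (∀ i ∈ A, ζ i = 1 ∨ ζ i = -1) ∧
      gswQ w (∑ i ∈ A, (ζ i - z i) • φ i) ≤ ∑ m, ‖w m‖ ^ 2 := by
  rcases A.eq_empty_or_nonempty with hA | ⟨p, hpA⟩
  · subst hA
    refine ⟨z, by simp, ?_⟩
    simp only [Finset.sum_empty, gswQ, inner_zero_right]
    have : 0 ≤ ∑ m, ‖w m‖ ^ 2 := Finset.sum_nonneg fun _ _ => by positivity
    simpa using this
  · have hins : insert p (A.erase p) = A := Finset.insert_erase hpA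
    obtain ⟨ζ, h1, h2⟩ := gsw_main φ w hφ _ (A.erase p) p ⊤ z 0 rfl (Finset.notMem_erase _ _)
      (fun _ _ => Submodule.mem_top) (by rw [hins]; exact hz)
    rw [hins] at h1 h2
    refine ⟨ζ, h1, ?_⟩
    rw [zero_add] at h2
    refine h2.trans ?_
    have h3 : gswQ w (0 : E) = 0 := by simp [gswQ]
    have h4 : gswPi w (gswU φ (A.erase p)) ≤ gswPi w ⊤ := gswPi_mono w le_top
    have h5 : gswPi w ⊤ ≤ ∑ m, ‖w m‖ ^ 2 := gswPi_le w ⊤
    have h6 : 0 ≤ (z p) ^ 2 := sq_nonneg _
    rw [h3]
    nlinarith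

end gsw

/-- L1 (GSW): Gram-Schmidt-walk rounding with energy tests. -/
theorem rounding {ι : Type} [Fintype ι] [DecidableEq ι] {d : ℕ} (v : ι → Fin d → ℝ)
    (A : Finset ι) (hv : ∀ i ∈ A, ∑ k, (v i k) ^ 2 ≤ 1) (x : ι → ℝ)
    (hx : ∀ i ∈ A, 0 ≤ x i ∧ x i ≤ 1) {M1 M2 : Type} [Fintype M1] [Fintype M2]
    (w : M1 → Fin d → ℝ) (h : M2 → ι → ℝ) :
    ∃ ξ : ι → ℝ, (∀ i ∈ A, ξ i = 0 ∨ ξ i = 1) ∧
      ∑ m, (∑ i ∈ A, (ξ i - x i) * ∑ k, w m k * v i k) ^ 2
        + ∑ m, (∑ i ∈ A, (ξ i - x i) * h m i) ^ 2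
      ≤ (1 / 2) * (∑ m, ∑ k, (w m k) ^ 2 + ∑ m, ∑ i ∈ A, (h m i) ^ 2) := by
  classical
  have hs2 : (Real.sqrt 2) ^ 2 = 2 := Real.sq_sqrt (by norm_num)
  have hs0 : Real.sqrt 2 ≠ 0 := by positivity
  let φ : ι → EuclideanSpace ℝ (Fin d ⊕ ι) := fun i =>
    if i ∈ A then WithLp.toLp 2 (Sum.elim (fun k => v i k / Real.sqrt 2)
      (fun j => if j = i then 1 / Real.sqrt 2 else 0)) else 0
  let W : M1 ⊕ M2 → EuclideanSpace ℝ (Fin d ⊕ ι) := fun m =>
    Sum.elim (fun m1 => WithLp.toLp 2 (Sum.elim (fun k => w m1 k) (fun _ => 0)))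
      (fun m2 => WithLp.toLp 2 (Sum.elim (fun _ => 0) (fun j => if j ∈ A then h m2 j else 0))) m
  have hφ : ∀ i, ‖φ i‖ ≤ 1 := by
    intro i
    have h1 : ‖φ i‖ ^ 2 ≤ 1 := by
      by_cases hi : i ∈ A
      · simp only [φ, if_pos hi]
        rw [EuclideanSpace.norm_sq_eq, Fintype.sum_sum_type]
        simp only [Sum.elim_inl, Sum.elim_inr, Real.norm_eq_abs, sq_abs, div_pow, hs2]
        rw [← Finset.sum_div]
        have h3 : ∑ j : ι, (if j = i then 1 / Real.sqrt 2 else 0) ^ 2 = (1 : ℝ) / 2 := by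
          rw [Finset.sum_eq_single i]
          · rw [if_pos rfl, div_pow, hs2, one_pow]
          · intro j _ hj
            rw [if_neg hj]
            norm_num
          · intro h; exact absurd (Finset.mem_univ i) h
        rw [h3]
        have := hv i hi
        linarith
      · simp [φ, if_neg hi]
    have h0 := norm_nonneg (φ i)
    nlinarith
  obtain ⟨ζ, h1, h2⟩ := gsw_signs φ W hφ A (fun i => 2 * x i - 1) (by
    intro i hi
    have := hx i hi
    rw [abs_le]
    constructor <;> linarith [this.1, this.2])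
  refine ⟨fun i => (1 + ζ i) / 2, ?_, ?_⟩
  · intro i hi
    rcases h1 i hi with h | h
    · right; show (1 + ζ i) / 2 = 1; rw [h]; norm_num
    · left; show (1 + ζ i) / 2 = 0; rw [h]; norm_num
  · have hin1 : ∀ m1 : M1, inner ℝ (W (Sum.inl m1)) (∑ i ∈ A, (ζ i - (2 * x i - 1)) • φ i)
        = Real.sqrt 2 * ∑ i ∈ A, ((1 + ζ i) / 2 - x i) * ∑ k, w m1 k * v i k := by
      intro m1
      rw [inner_sum, Finset.mul_sum]
      apply Finset.sum_congr rfl
      intro i hi
      rw [inner_smul_right]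
      have : inner ℝ (W (Sum.inl m1)) (φ i) = (∑ k, w m1 k * v i k) / Real.sqrt 2 := by
        simp only [W, φ, if_pos hi, Sum.elim_inl]
        rw [PiLp.inner_apply, Fintype.sum_sum_type]
        simp only [Sum.elim_inl, Sum.elim_inr, inner_zero_left, Finset.sum_const_zero, add_zero]
        rw [Finset.sum_div]
        apply Finset.sum_congr rfl
        intro k _
        simp only [RCLike.inner_apply, conj_trivial]
        ring
      rw [this]
      field_simp
      rw [hs2]
      ring
    have hin2 : ∀ m2 : M2, inner ℝ (W (Sum.inr m2)) (∑ i ∈ A, (ζ i - (2 * x i - 1)) • φ i)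
        = Real.sqrt 2 * ∑ i ∈ A, ((1 + ζ i) / 2 - x i) * h m2 i := by
      intro m2
      rw [inner_sum, Finset.mul_sum]
      apply Finset.sum_congr rfl
      intro i hi
      rw [inner_smul_right]
      have : inner ℝ (W (Sum.inr m2)) (φ i) = h m2 i / Real.sqrt 2 := by
        simp only [W, φ, if_pos hi, Sum.elim_inr]
        rw [PiLp.inner_apply, Fintype.sum_sum_type]
        simp only [Sum.elim_inl, Sum.elim_inr, inner_zero_left, Finset.sum_const_zero, zero_add]
        rw [Finset.sum_eq_single i]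
        · simp only [RCLike.inner_apply, conj_trivial, if_pos hi, if_true]
          ring
        · intro j _ hj
          rw [if_neg hj, inner_zero_right]
        · intro h; exact absurd (Finset.mem_univ i) h
      rw [this]
      field_simp
      rw [hs2]
      ring
    unfold gswQ at h2
    rw [Fintype.sum_sum_type, Fintype.sum_sum_type] at h2
    simp only [hin1, hin2, mul_pow, hs2] at h2
    rw [← Finset.mul_sum, ← Finset.mul_sum] at h2
    have hn1 : ∀ m1 : M1, ‖W (Sum.inl m1)‖ ^ 2 = ∑ k, (w m1 k) ^ 2 := by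
      intro m1
      rw [EuclideanSpace.norm_sq_eq, Fintype.sum_sum_type]
      simp [W]
    have hn2 : ∀ m2 : M2, ‖W (Sum.inr m2)‖ ^ 2 = ∑ i ∈ A, (h m2 i) ^ 2 := by
      intro m2
      rw [EuclideanSpace.norm_sq_eq, Fintype.sum_sum_type]
      simp only [W, Sum.elim_inr, Sum.elim_inl, norm_zero, Real.norm_eq_abs, sq_abs]
      simp only [ite_pow, ne_eq, OfNat.ofNat_ne_zero, not_false_eq_true, zero_pow,
        Finset.sum_const_zero, zero_add]
      rw [← Finset.sum_filter]
      apply Finset.sum_congr _ fun _ _ => rfl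
      ext j; simp
    simp only [hn1, hn2] at h2
    linarith

end Vale.Agent.H22.ST
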