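import Mathlib

/-!
# Existence of the numerical parameters (L11 of the Steinitz project, P262)
-/

noncomputable section

namespace Vale.Agent.H22.ST

theorem params_sq_le (m : ℕ) (hm : 4 ≤ m) : (m : ℝ) ^ 2 ≤ 2 ^ m := by
  induction m, hm using Nat.le_induction with
  | base => norm_num
  | succ k hk ih =>
    push_cast
    have h1 : (4 : ℝ) ≤ k := by exact_mod_cast hk
    have h2 : (2 : ℝ) ^ (k + 1) = 2 * 2 ^ k := by ring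
    rw [h2]
    nlinarith

theorem params_K {μ N Γ K : ℝ} (hm30 : 30 ≤ μ) (hN31 : N ≤ 31 * μ)
    (hΓ : Γ = 13 * μ) (hK : K = 10 * Γ * N) : K + 1 ≤ 4031 * μ ^ 2 := by
  rw [hK, hΓ]
  have h1 : 10 * (13 * μ) * N ≤ 10 * (13 * μ) * (31 * μ) :=
    mul_le_mul_of_nonneg_left hN31 (by linarith)
  nlinarith

theorem params_s1 {μ N Γ : ℝ} (hm30 : 30 ≤ μ) (hN31 : N ≤ 31 * μ)
    (hΓ : Γ = 13 * μ) : Real.sqrt (Γ * N) ≤ 20.1 * μ := by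
  apply Real.sqrt_le_iff.mpr
  constructor
  · linarith
  · have h1 : Γ * N ≤ Γ * (31 * μ) := mul_le_mul_of_nonneg_left hN31 (by rw [hΓ]; linarith)
    rw [hΓ] at h1 ⊢
    nlinarith

theorem params_s2 {μ Γ K : ℝ} (hm30 : 30 ≤ μ) (hΓ : Γ = 13 * μ)
    (hK1 : K + 1 ≤ 4031 * μ ^ 2) : Real.sqrt (Γ * (K + 1)) ≤ 229 * μ ^ 2 := by
  apply Real.sqrt_le_iff.mpr
  constructor
  · positivity
  · have h1 : Γ * (K + 1) ≤ Γ * (4031 * μ ^ 2) :=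
      mul_le_mul_of_nonneg_left hK1 (by rw [hΓ]; linarith)
    have h2 : Γ * (4031 * μ ^ 2) = 52403 * μ ^ 3 := by rw [hΓ]; ring
    have h3 : μ ^ 3 ≤ μ ^ 4 := by
      have : μ ^ 4 = μ ^ 3 * μ := by ring
      rw [this]
      have : 0 ≤ μ ^ 3 := by positivity
      nlinarith
    have h4 : (229 * μ ^ 2) ^ 2 = 52441 * μ ^ 4 := by ring
    have : 0 ≤ μ ^ 4 := by positivity
    rw [h4]
    linarith

theorem params_Y {μ N s1 s2 K Yinf : ℝ} (hm30 : 30 ≤ μ) (hN31 : N ≤ 31 * μ)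
    (hs1b : s1 ≤ 20.1 * μ) (hs10 : 0 ≤ s1) (hs2b : s2 ≤ 229 * μ ^ 2)
    (hK1 : K + 1 ≤ 4031 * μ ^ 2) (hY : Yinf = N * s1 + 2 + 17 * s2 + 20 * (K + 1)) :
    Yinf ≤ 85200 * μ ^ 2 := by
  have h1 : N * s1 ≤ (31 * μ) * (20.1 * μ) := mul_le_mul hN31 hs1b hs10 (by linarith)
  rw [hY]
  nlinarith

theorem params_R {μ s sΓ Yinf : ℝ} (hm30 : 30 ≤ μ) (hs1 : 1 ≤ s) (hsΓ : sΓ ≤ 4 * μ)
    (hYb : Yinf ≤ 85200 * μ ^ 2) : s * (2 * sΓ + 2 * Yinf) ≤ s * (171000 * μ ^ 2) := by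
  apply mul_le_mul_of_nonneg_left _ (by linarith)
  have : 8 * μ ≤ 600 * μ ^ 2 := by nlinarith
  linarith

theorem params_R3 {μ s d R t : ℝ} (hd1 : 1 ≤ d) (hss : s ^ 2 = d) (hR0 : 0 ≤ R)
    (hRb : R ≤ s * (171000 * μ ^ 2)) (hμ2 : μ ^ 2 ≤ t) (h2m0 : 0 < t)
    (htbig : (2 : ℝ) ^ 30 ≤ t) (hdt : d * 2 ^ 30 ≤ t) :
    8 * (961 * μ ^ 2) * R ^ 2 ≤ t ^ 6 := by
  have hR2 : R ^ 2 ≤ d * (29241000000 * μ ^ 4) := by
    calc R ^ 2 ≤ (s * (171000 * μ ^ 2)) ^ 2 := pow_le_pow_left₀ hR0 hRb 2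
      _ = s ^ 2 * (29241000000 * μ ^ 4) := by ring
      _ = _ := by rw [hss]
  have hμ4 : μ ^ 4 ≤ t ^ 2 := by
    calc μ ^ 4 = (μ ^ 2) ^ 2 := by ring
      _ ≤ t ^ 2 := pow_le_pow_left₀ (by positivity) hμ2 2
  have h1 : 8 * (961 * μ ^ 2) * R ^ 2 ≤ 8 * (961 * t) * (d * (29241000000 * t ^ 2)) := by
    apply mul_le_mul
    · linarith
    · refine hR2.trans ?_
      apply mul_le_mul_of_nonneg_left _ (by linarith)
      linarith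
    · positivity
    · positivity
  refine h1.trans ?_
  have h2 : 8 * (961 * t) * (d * (29241000000 * t ^ 2))
      = (8 * 961 * 29241000000 / 2 ^ 30) * (d * 2 ^ 30) * t ^ 3 := by ring
  rw [h2]
  calc (8 * 961 * 29241000000 / 2 ^ 30 : ℝ) * (d * 2 ^ 30) * t ^ 3
      ≤ (2 ^ 30) * t * t ^ 3 := by
        apply mul_le_mul_of_nonneg_right _ (by positivity)
        apply mul_le_mul _ hdt (by positivity) (by norm_num)
        norm_num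
    _ ≤ t * t * t ^ 3 := by
        apply mul_le_mul_of_nonneg_right _ (by positivity)
        exact mul_le_mul_of_nonneg_right htbig h2m0.le
    _ = t ^ 5 * 1 := by ring
    _ ≤ t ^ 5 * t := by
        apply mul_le_mul_of_nonneg_left _ (by positivity)
        exact le_trans (by norm_num) htbig
    _ = t ^ 6 := by ring

theorem params_Kc {μ K t : ℝ} (hK1 : K + 1 ≤ 4031 * μ ^ 2) (hμ2 : μ ^ 2 ≤ t) (h2m0 : 0 < t)
    (htbig : (2 : ℝ) ^ 30 ≤ t) : K + 1 ≤ t ^ 6 := by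
  calc K + 1 ≤ 4031 * μ ^ 2 := hK1
    _ ≤ 4031 * t := by linarith
    _ ≤ t * t := by
        apply mul_le_mul_of_nonneg_right _ h2m0.le
        exact le_trans (by norm_num) htbig
    _ = t ^ 2 * 1 := by ring
    _ ≤ t ^ 2 * t ^ 4 := by
        apply mul_le_mul_of_nonneg_left _ (by positivity)
        exact one_le_pow₀ (le_trans (by norm_num) htbig)
    _ = t ^ 6 := by ring

theorem params_c1 {m : ℕ} {t : ℝ} (h2m0 : 0 < t) (h26 : (2 : ℝ) ^ (6 * m) = t ^ 6) :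
    3 * t ^ 6 * (0.8 : ℝ) ^ (24 * m + 8) ≤ 1 := by
  have ht6 : 0 < t ^ 6 := by positivity
  have h1 : (0.8 : ℝ) ^ (24 * m + 8) = (0.4096 : ℝ) ^ (6 * m + 2) := by
    rw [show 24 * m + 8 = 4 * (6 * m + 2) by ring, pow_mul]; norm_num
  have h2 : (0.4096 : ℝ) ^ (6 * m + 2) ≤ (1 / 2 : ℝ) ^ (6 * m + 2) :=
    pow_le_pow_left₀ (by norm_num) (by norm_num) _
  have h3 : (1 / 2 : ℝ) ^ (6 * m + 2) = 1 / (4 * t ^ 6) := by
    rw [div_pow, one_pow, pow_add, h26]; ring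
  rw [h1]
  calc 3 * t ^ 6 * (0.4096 : ℝ) ^ (6 * m + 2) ≤ 3 * t ^ 6 * (1 / (4 * t ^ 6)) := by
        rw [← h3]
        exact mul_le_mul_of_nonneg_left h2 (by positivity)
    _ = 3 / 4 := by field_simp
    _ ≤ 1 := by norm_num

theorem params_c2 {μ s d R t Γ : ℝ} (hm30 : 30 ≤ μ) (hd1 : 1 ≤ d) (hss : s ^ 2 = d)
    (hs1' : 1 ≤ s) (hsd : s ≤ d) (hΓ : Γ = 13 * μ)
    (hRb : R ≤ s * (171000 * μ ^ 2)) (hμ2 : μ ^ 2 ≤ t) (h2m0 : 0 < t)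
    (hdt : d * 2 ^ 30 ≤ t) :
    7 * d * (6 * R + 2 * Real.sqrt (2 * Γ * d)) ≤ Real.sqrt (t ^ 6) := by
  have h1 : Real.sqrt (t ^ 6) = t ^ 3 := by
    rw [show t ^ 6 = (t ^ 3) ^ 2 by ring, Real.sqrt_sq (by positivity)]
  rw [h1]
  have h2 : Real.sqrt (2 * Γ * d) ≤ 6 * μ * s := by
    apply Real.sqrt_le_iff.mpr
    constructor
    · positivity
    · rw [hΓ, mul_pow, hss]
      apply mul_le_mul_of_nonneg_right _ (by linarith)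
      nlinarith
  have h3 : 6 * R + 2 * Real.sqrt (2 * Γ * d) ≤ s * (1026001 * μ ^ 2) := by
    have h4 : 2 * (6 * μ * s) ≤ s * μ ^ 2 := by
      have : 12 * μ ≤ μ ^ 2 := by nlinarith
      calc 2 * (6 * μ * s) = s * (12 * μ) := by ring
        _ ≤ s * μ ^ 2 := mul_le_mul_of_nonneg_left this (by linarith)
    calc 6 * R + 2 * Real.sqrt (2 * Γ * d)
        ≤ 6 * (s * (171000 * μ ^ 2)) + s * μ ^ 2 := by linarith
      _ = _ := by ring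
  calc 7 * d * (6 * R + 2 * Real.sqrt (2 * Γ * d)) ≤ 7 * d * (s * (1026001 * μ ^ 2)) :=
        mul_le_mul_of_nonneg_left h3 (by positivity)
    _ ≤ 7 * d * (d * (1026001 * t)) := by
        apply mul_le_mul_of_nonneg_left _ (by positivity)
        apply mul_le_mul hsd _ (by positivity) (by linarith)
        linarith
    _ = (7 * 1026001 / (2 ^ 30 * 2 ^ 30)) * ((d * 2 ^ 30) * (d * 2 ^ 30)) * t := by ring
    _ ≤ 1 * (t * t) * t := by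
        apply mul_le_mul_of_nonneg_right _ h2m0.le
        apply mul_le_mul (by norm_num) _ (by positivity) (by norm_num)
        exact mul_le_mul hdt hdt (by positivity) h2m0.le
    _ = t ^ 3 := by ring

theorem params_c3 {μ R t N X : ℝ} (hm30 : 30 ≤ μ) (hN31 : N ≤ 31 * μ) (ht : 0 < t)
    (hR3 : 8 * (961 * μ ^ 2) * R ^ 2 ≤ t ^ 6) (hX : X ≤ 4 * t ^ 6) :
    N * Real.sqrt (2 * R ^ 2 * X / (t ^ 6 * t ^ 6)) ≤ 1 := by
  have ht6 : 0 < t ^ 6 := by positivity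
  have h1 : 2 * R ^ 2 * X / (t ^ 6 * t ^ 6) ≤ 8 * R ^ 2 / t ^ 6 := by
    rw [div_le_div_iff₀ (by positivity) ht6]
    have h2 : 2 * R ^ 2 * X ≤ 2 * R ^ 2 * (4 * t ^ 6) :=
      mul_le_mul_of_nonneg_left hX (by positivity)
    calc 2 * R ^ 2 * X * t ^ 6 ≤ 2 * R ^ 2 * (4 * t ^ 6) * t ^ 6 :=
          mul_le_mul_of_nonneg_right h2 ht6.le
      _ = 8 * R ^ 2 * (t ^ 6 * t ^ 6) := by ring
  have h3 : N * Real.sqrt (2 * R ^ 2 * X / (t ^ 6 * t ^ 6))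
      ≤ (31 * μ) * Real.sqrt (8 * R ^ 2 / t ^ 6) :=
    mul_le_mul hN31 (Real.sqrt_le_sqrt h1) (Real.sqrt_nonneg _) (by linarith)
  refine h3.trans ?_
  have h4 : Real.sqrt (8 * R ^ 2 / t ^ 6) ≤ 1 / (31 * μ) := by
    apply Real.sqrt_le_iff.mpr
    constructor
    · positivity
    · rw [div_le_iff₀ ht6, div_pow, one_pow, div_mul_eq_mul_div, one_mul,
        le_div_iff₀ (by positivity)]
      calc 8 * R ^ 2 * (31 * μ) ^ 2 = 8 * (961 * μ ^ 2) * R ^ 2 := by ring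
        _ ≤ t ^ 6 := hR3
  calc (31 * μ) * Real.sqrt (8 * R ^ 2 / t ^ 6) ≤ (31 * μ) * (1 / (31 * μ)) :=
        mul_le_mul_of_nonneg_left h4 (by linarith)
    _ = 1 := by field_simp

theorem params_log (d l : ℕ) (hd : 1 ≤ d) (hl : l = Nat.clog 2 d) :
    (d : ℝ) ≤ 2 ^ l ∧ Real.log d ≤ 0.7 * l ∧ (l : ℝ) ≤ 1 + 1.45 * Real.log d := by
  have hd1 : (1 : ℝ) ≤ d := by exact_mod_cast hd
  have hdl : (d : ℝ) ≤ 2 ^ l := by
    have := Nat.le_pow_clog (b := 2) (by norm_num) d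
    rw [hl]
    exact_mod_cast this
  have hlog0 : 0 ≤ Real.log d := Real.log_nonneg hd1
  refine ⟨hdl, ?_, ?_⟩
  · have h1 : Real.log d ≤ Real.log (2 ^ l) := Real.log_le_log (by linarith) hdl
    rw [Real.log_pow] at h1
    have h2 := Real.log_two_lt_d9
    have h3 : (0 : ℝ) ≤ l := Nat.cast_nonneg _
    nlinarith
  · rcases Nat.eq_zero_or_pos l with h0 | h0
    · rw [h0]; push_cast; nlinarith
    · have h1 : 2 ^ (l - 1) < d := Nat.pow_lt_of_lt_clog (by rw [← hl]; omega)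
      have h2 : ((2 : ℝ) ^ (l - 1)) ≤ d := by exact_mod_cast h1.le
      have h3 : Real.log ((2 : ℝ) ^ (l - 1)) ≤ Real.log d := Real.log_le_log (by positivity) h2
      rw [Real.log_pow] at h3
      have h4 := Real.log_two_gt_d9
      have h5 : ((l - 1 : ℕ) : ℝ) = l - 1 := by
        rw [Nat.cast_sub h0]; simp
      rw [h5] at h3
      have h6 : (0 : ℝ) ≤ (l : ℝ) - 1 := by
        have : (1 : ℝ) ≤ l := by exact_mod_cast h0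
        linarith
      nlinarith

theorem params_fin {μ l L s R : ℝ} (hm30 : 30 ≤ μ) (hμl : μ = l + 30) (hlog0 : 0 ≤ L)
    (hll : l ≤ 1 + 1.45 * L) (hs1' : 1 ≤ s) (hRb : R ≤ s * (171000 * μ ^ 2)) :
    R ≤ 200000000 * s * (1 + L) ^ 2 := by
  have h1 : μ ≤ 31 * (1 + L) := by rw [hμl]; linarith
  have h2 : μ ^ 2 ≤ (31 * (1 + L)) ^ 2 := pow_le_pow_left₀ (by linarith) h1 2
  calc R ≤ s * (171000 * μ ^ 2) := hRb
    _ ≤ s * (171000 * (31 * (1 + L)) ^ 2) := by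
        apply mul_le_mul_of_nonneg_left _ (by linarith)
        linarith
    _ = (171000 * 961) * s * (1 + L) ^ 2 := by ring
    _ ≤ 200000000 * s * (1 + L) ^ 2 := by
        apply mul_le_mul_of_nonneg_right _ (by positivity)
        apply mul_le_mul_of_nonneg_right _ (by linarith)
        norm_num

theorem params_sΓ {μ Γ : ℝ} (hm30 : 30 ≤ μ) (hΓ : Γ = 13 * μ) : Real.sqrt Γ ≤ 4 * μ := by
  apply Real.sqrt_le_iff.mpr
  constructor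
  · linarith
  · rw [hΓ]; nlinarith

theorem params_dt {d t : ℝ} (hd1 : 1 ≤ d) (h2m0 : 0 < t) (htbig : (2 : ℝ) ^ 30 ≤ t)
    (hdt : d * 2 ^ 30 ≤ t) : 1 ≤ t ^ 6 ∧ d ≤ t ^ 6 := by
  constructor
  · exact one_le_pow₀ (le_trans (by norm_num) htbig)
  · calc (d : ℝ) = d * 1 := by ring
      _ ≤ d * 2 ^ 30 := by
          apply mul_le_mul_of_nonneg_left _ (by linarith)
          norm_num
      _ ≤ t := hdt
      _ = t * 1 := by ring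
      _ ≤ t * t ^ 5 := by
          apply mul_le_mul_of_nonneg_left _ h2m0.le
          exact one_le_pow₀ (le_trans (by norm_num) htbig)
      _ = t ^ 6 := by ring

/-- L11: parameters exist. -/
theorem exists_params : ∃ C : ℝ, 0 < C ∧ ∀ d : ℕ, 1 ≤ d →
    ∃ (n a2 : ℕ) (c' Γ K R Yinf : ℝ), 1 ≤ c' ∧ (d : ℝ) ≤ c' ∧ 2 ≤ a2 ∧
      12.7 + (1 / 2) * Real.log d ≤ Γ ∧ K = 10 * Γ * (n + a2 : ℕ) ∧
      3 * c' * (0.8 : ℝ) ^ a2 ≤ 1 ∧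
      R = Real.sqrt d * (2 * Real.sqrt Γ + 2 * Yinf) ∧
      Yinf = ((n + a2 : ℕ) : ℝ) * Real.sqrt (Γ * (n + a2 : ℕ)) + 2
        + 17 * Real.sqrt (Γ * (K + 1)) + 20 * (K + 1) ∧
      7 * d * (6 * R + 2 * Real.sqrt (2 * Γ * d)) ≤ Real.sqrt c' ∧
      ((n + a2 : ℕ) : ℝ) * Real.sqrt (2 * R ^ 2 * (3 * c' + K) / (c' * 2 ^ n)) ≤ 1 ∧
      10 * Real.sqrt (2 * R ^ 2 * (K + 1) / (c' * 2 ^ n)) ≤ 1 ∧
      R ≤ C * Real.sqrt d * (1 + Real.log d) ^ 2 := by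
  refine ⟨200000000, by norm_num, ?_⟩
  intro d hd
  have hd1 : (1 : ℝ) ≤ d := by exact_mod_cast hd
  obtain ⟨l, hl⟩ : ∃ l : ℕ, l = Nat.clog 2 d := ⟨_, rfl⟩
  obtain ⟨hdl, hlogl, hll⟩ := params_log d l hd hl
  have hlog0 : 0 ≤ Real.log d := Real.log_nonneg hd1
  have hl0 : (0 : ℝ) ≤ l := Nat.cast_nonneg _
  obtain ⟨m, hm⟩ : ∃ m : ℕ, m = l + 30 := ⟨_, rfl⟩
  obtain ⟨μ, hμ⟩ : ∃ μ : ℝ, μ = (m : ℝ) := ⟨_, rfl⟩
  have hμl : μ = l + 30 := by rw [hμ, hm]; push_cast; ring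
  have hm30 : (30 : ℝ) ≤ μ := by linarith
  obtain ⟨t, ht⟩ : ∃ t : ℝ, t = 2 ^ m := ⟨_, rfl⟩
  have hμ2 : μ ^ 2 ≤ t := by rw [hμ, ht]; exact params_sq_le m (by omega)
  have h2l : t = 2 ^ l * 2 ^ 30 := by rw [ht, hm, pow_add]
  have h2l0 : (1 : ℝ) ≤ 2 ^ l := one_le_pow₀ (by norm_num)
  have h2m0 : 0 < t := by rw [ht]; positivity
  have h26 : (2 : ℝ) ^ (6 * m) = t ^ 6 := by
    rw [ht, ← pow_mul, mul_comm m 6]
  have htbig : (2 : ℝ) ^ 30 ≤ t := by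
    rw [h2l]; nlinarith
  have hdt : (d : ℝ) * 2 ^ 30 ≤ t := by
    rw [h2l]
    exact mul_le_mul_of_nonneg_right hdl (by norm_num)
  -- the parameters
  obtain ⟨N, hN⟩ : ∃ N : ℕ, N = 6 * m + (24 * m + 8) := ⟨_, rfl⟩
  have hNr : (N : ℝ) = 30 * μ + 8 := by rw [hN, hμ]; push_cast; ring
  have hN31 : (N : ℝ) ≤ 31 * μ := by rw [hNr]; linarith
  have hN0 : (0 : ℝ) ≤ N := Nat.cast_nonneg _
  obtain ⟨Γ, hΓ⟩ : ∃ Γ : ℝ, Γ = 13 * μ := ⟨_, rfl⟩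
  have hΓ0 : 0 ≤ Γ := by rw [hΓ]; linarith
  obtain ⟨K, hK⟩ : ∃ K : ℝ, K = 10 * Γ * N := ⟨_, rfl⟩
  have hK0 : 0 ≤ K := by rw [hK]; positivity
  have hK1 : K + 1 ≤ 4031 * μ ^ 2 := params_K hm30 hN31 hΓ hK
  obtain ⟨s1, hs1⟩ : ∃ s1 : ℝ, s1 = Real.sqrt (Γ * N) := ⟨_, rfl⟩
  have hs1b : s1 ≤ 20.1 * μ := by rw [hs1]; exact params_s1 hm30 hN31 hΓ
  have hs10 : 0 ≤ s1 := hs1 ▸ Real.sqrt_nonneg _
  obtain ⟨s2, hs2⟩ : ∃ s2 : ℝ, s2 = Real.sqrt (Γ * (K + 1)) := ⟨_, rfl⟩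
  have hs2b : s2 ≤ 229 * μ ^ 2 := by rw [hs2]; exact params_s2 hm30 hΓ hK1
  have hs20 : 0 ≤ s2 := hs2 ▸ Real.sqrt_nonneg _
  obtain ⟨Yinf, hY⟩ : ∃ Yinf : ℝ, Yinf = (N : ℝ) * s1 + 2 + 17 * s2 + 20 * (K + 1) :=
    ⟨_, rfl⟩
  have hYb : Yinf ≤ 85200 * μ ^ 2 := params_Y hm30 hN31 hs1b hs10 hs2b hK1 hY
  have hY0 : 0 ≤ Yinf := by rw [hY]; positivity
  have hsΓ : Real.sqrt Γ ≤ 4 * μ := params_sΓ hm30 hΓ
  have hsΓ0 : 0 ≤ Real.sqrt Γ := Real.sqrt_nonneg _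
  obtain ⟨s, hs⟩ : ∃ s : ℝ, s = Real.sqrt d := ⟨_, rfl⟩
  have hs1' : 1 ≤ s := by
    rw [hs]; exact Real.one_le_sqrt.mpr hd1
  have hss : s ^ 2 = d := by rw [hs]; exact Real.sq_sqrt (by linarith)
  have hsd : s ≤ d := by rw [← hss]; nlinarith
  obtain ⟨R, hR⟩ : ∃ R : ℝ, R = s * (2 * Real.sqrt Γ + 2 * Yinf) := ⟨_, rfl⟩
  have hR0 : 0 ≤ R := by rw [hR]; positivity
  have hRb : R ≤ s * (171000 * μ ^ 2) := by rw [hR]; exact params_R hm30 hs1' hsΓ hYb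
  have hR3 := params_R3 hd1 hss hR0 hRb hμ2 h2m0 htbig hdt
  have hKc : K + 1 ≤ t ^ 6 := params_Kc hK1 hμ2 h2m0 htbig
  have ht6 : 0 < t ^ 6 := by positivity
  refine ⟨6 * m, 24 * m + 8, t ^ 6, Γ, K, R, Yinf, ?_, ?_, by omega, ?_, ?_,
    params_c1 h2m0 h26, ?_, ?_, params_c2 hm30 hd1 hss hs1' hsd hΓ hRb hμ2 h2m0 hdt,
    ?_, ?_, ?_⟩
  · exact (params_dt hd1 h2m0 htbig hdt).1
  · exact (params_dt hd1 h2m0 htbig hdt).2
  · rw [hΓ]; linarith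
  · rw [hK, ← hN]
  · rw [hR, hs]
  · rw [← hN, ← hs1, ← hs2, hY]
  · rw [← hN, h26]
    exact params_c3 hm30 hN31 h2m0 hR3 (by linarith)
  · rw [h26]
    exact params_c3 hm30 (by linarith) h2m0 hR3 (by linarith)
  · rw [← hs]
    exact params_fin hm30 hμl hlog0 hll hs1' hRb

end Vale.Agent.H22.ST
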