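import Vale.Agent.H22.ST.L9
import Vale.Agent.H22.ST.L11

/-!
# Main theorem: orderings of zero-sum families in Euclidean space
-/

set_option linter.unusedSectionVars false

noncomputable section

open Finset
open scoped InnerProductSpace

namespace Vale.Agent.H22.ST

/-- An orthonormal basis diagonalising the Gram operator of a finite family, with increasing
energies. -/
theorem exists_basis {N d : ℕ} (v : Fin N → EuclideanSpace ℝ (Fin d)) :
    ∃ b : OrthonormalBasis (Fin d) ℝ (EuclideanSpace ℝ (Fin d)),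
      (∀ k l, k ≠ l → ∑ i, ⟪b k, v i⟫_ℝ * ⟪b l, v i⟫_ℝ = 0) ∧
      Monotone (fun k => ∑ i, ⟪b k, v i⟫_ℝ ^ 2) := by
  let T : EuclideanSpace ℝ (Fin d) →ₗ[ℝ] EuclideanSpace ℝ (Fin d) :=
    { toFun := fun x => ∑ i, ⟪v i, x⟫_ℝ • v i
      map_add' := by
        intro x y
        simp only [inner_add_right, add_smul, Finset.sum_add_distrib]
      map_smul' := by
        intro c x
        simp only [inner_smul_right, mul_smul, RingHom.id_apply, Finset.smul_sum] }
  have hTapp : ∀ x, T x = ∑ i, ⟪v i, x⟫_ℝ • v i := fun _ => rfl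
  have hT : T.IsSymmetric := by
    intro x y
    rw [hTapp, hTapp, sum_inner, inner_sum]
    apply Finset.sum_congr rfl
    intro i _
    rw [real_inner_smul_left, real_inner_smul_right, real_inner_comm x (v i)]
    ring
  have hn : Module.finrank ℝ (EuclideanSpace ℝ (Fin d)) = d := by simp
  let b0 := hT.eigenvectorBasis hn
  let lam0 : Fin d → ℝ := fun k => ∑ i, ⟪b0 k, v i⟫_ℝ ^ 2
  let σ := Tuple.sort lam0
  have hgram : ∀ k l, k ≠ l → ∑ i, ⟪b0 k, v i⟫_ℝ * ⟪b0 l, v i⟫_ℝ = 0 := by
    intro k l hkl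
    have h1 : ⟪b0 k, T (b0 l)⟫_ℝ = ∑ i, ⟪b0 k, v i⟫_ℝ * ⟪b0 l, v i⟫_ℝ := by
      rw [hTapp, inner_sum]
      apply Finset.sum_congr rfl
      intro i _
      rw [real_inner_smul_right, real_inner_comm (b0 l) (v i)]
      ring
    have h2 : T (b0 l) = (hT.eigenvalues hn l : ℝ) • b0 l := hT.apply_eigenvectorBasis hn l
    rw [← h1, h2, real_inner_smul_right, b0.orthonormal.2 hkl, mul_zero]
  refine ⟨b0.reindex σ.symm, ?_, ?_⟩
  · intro k l hkl
    simp only [OrthonormalBasis.reindex_apply, Equiv.symm_symm]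
    exact hgram (σ k) (σ l) (fun h => hkl (σ.injective h))
  · have h3 := Tuple.monotone_sort lam0
    intro k l hkl
    simp only [OrthonormalBasis.reindex_apply, Equiv.symm_symm]
    exact h3 hkl

/-- L12: main theorem: orderings of zero-sum families. -/
theorem main : ∃ C : ℝ, 0 < C ∧ ∀ (d N : ℕ), 1 ≤ d → ∀ v : Fin N → EuclideanSpace ℝ (Fin d),
    (∀ i, ‖v i‖ ≤ 1) → ∑ i, v i = 0 →
    ∃ π : Equiv.Perm (Fin N), ∀ k ≤ N,
      ‖∑ i ∈ univ.filter (fun i : Fin N => (i : ℕ) < k), v (π i)‖
        ≤ C * Real.sqrt d * (1 + Real.log d) ^ 2 := by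
  obtain ⟨C, hC, hpar⟩ := exists_params
  refine ⟨C, hC, ?_⟩
  intro d N hd v hv hsum
  obtain ⟨n, a2, c', Γ, K, R, Yinf, p1, p2, p3, p4, p5, p6, p7, p8, p9, p10, p11, p12⟩ :=
    hpar d hd
  obtain ⟨b, hgram, hmono⟩ := exists_basis v
  have hc' : 0 < c' := lt_of_lt_of_le one_pos p1
  have hex : ∀ k : Fin d, ∃ j : ℕ, (∑ i, ⟪b k, v i⟫_ℝ ^ 2) / 2 ^ j < c' := by
    intro k
    obtain ⟨j, hj⟩ := pow_unbounded_of_one_lt ((∑ i, ⟪b k, v i⟫_ℝ ^ 2) / c')
      (one_lt_two : (1 : ℝ) < 2)
    refine ⟨j, ?_⟩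
    rw [div_lt_iff₀ (by positivity)]
    rw [div_lt_iff₀ hc'] at hj
    linarith
  classical
  let g : Fin d → ℕ := fun k => Nat.find (hex k)
  let S : Data (Fin N) d :=
    { v := fun i k => ⟪b k, v i⟫_ℝ
      g := g
      n := n
      a2 := a2
      c' := c'
      Γ := Γ
      K := K
      R := R
      Yinf := Yinf
      norm_le := by
        intro i
        rw [b.sum_sq_inner_right]
        have h1 := hv i
        have h2 := norm_nonneg (v i)
        nlinarith
      sum_zero := by
        intro k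
        rw [← inner_sum, hsum, inner_zero_right]
      gram := hgram
      g_mono := by
        intro k l hkl
        apply Nat.find_min' (hex k)
        have h1 := Nat.find_spec (hex l)
        have h2 := hmono hkl
        simp only at h2
        refine lt_of_le_of_lt ?_ h1
        exact div_le_div_of_nonneg_right h2 (by positivity)
      g_lt := by
        intro k j hj
        have h1 := Nat.find_min (hex k) hj
        exact not_lt.mp h1
      g_le := fun k => Nat.find_spec (hex k)
      d_pos := hd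
      c'_ge := p1
      d_le_c' := p2
      a2_pos := p3
      Γ_ge := p4
      K_eq := p5
      a2_spec := p6
      R_eq := p7
      Yinf_eq := p8
      cond_c' := p9
      cond_S1 := p10
      cond_S2 := p11 }
  obtain ⟨l, hl1, hl2, hl3⟩ := S.exists_order
  have hlen : l.length = N := by
    have h1 := List.toFinset_card_of_nodup hl1
    rw [hl2] at h1
    simpa using h1.symm
  have hinj : Function.Injective (fun i : Fin N => l.get (Fin.cast hlen.symm i)) := by
    intro i j hij
    have h2 := (List.nodup_iff_injective_get.mp hl1) hij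
    exact Fin.cast_injective _ h2
  let π : Equiv.Perm (Fin N) := Equiv.ofBijective _ (Finite.injective_iff_bijective.mp hinj)
  have hπ : ∀ i, π i = l.get (Fin.cast hlen.symm i) := fun i => rfl
  refine ⟨π, ?_⟩
  intro k hk
  have himg : (univ.filter (fun i : Fin N => (i : ℕ) < k)).image π = (l.take k).toFinset := by
    ext x
    simp only [Finset.mem_image, Finset.mem_filter, Finset.mem_univ, true_and,
      List.mem_toFinset]
    constructor
    · rintro ⟨i, hi, rfl⟩
      rw [hπ, List.mem_take_iff_getElem]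
      refine ⟨i, ?_, rfl⟩
      rw [hlen]
      exact lt_min hi i.2
    · intro hx
      rw [List.mem_take_iff_getElem] at hx
      obtain ⟨i, hi, hix⟩ := hx
      have hi' : i < k ∧ i < l.length := lt_min_iff.mp hi
      refine ⟨⟨i, by omega⟩, hi'.1, ?_⟩
      rw [hπ]
      exact hix
  have hsumeq : ∑ i ∈ univ.filter (fun i : Fin N => (i : ℕ) < k), v (π i)
      = ∑ i ∈ (l.take k).toFinset, v i := by
    rw [← himg, Finset.sum_image (fun x _ y _ h => π.injective h)]
  rw [hsumeq]
  have hR0 : 0 ≤ S.R := S.R_nonneg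
  have hfin : ‖∑ i ∈ (l.take k).toFinset, v i‖ ^ 2 ≤ R ^ 2 := by
    rw [← b.sum_sq_inner_right]
    have h4 := hl3 k
    have h5 : ∀ m, S.D m (l.take k).toFinset = ⟪b m, ∑ i ∈ (l.take k).toFinset, v i⟫_ℝ := by
      intro m
      rw [inner_sum]
      rfl
    rw [Finset.sum_congr rfl fun m _ => by rw [h5 m]] at h4
    exact h4
  have hle : ‖∑ i ∈ (l.take k).toFinset, v i‖ ≤ R :=
    abs_le_of_sq_le_sq' hfin hR0 |>.2
  exact hle.trans p12

end Vale.Agent.H22.ST
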