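import Vale.Agent.H22.ST.L7a

/-!
# Numerical facts
-/

set_option linter.unusedSectionVars false

noncomputable section

open Finset

namespace Vale.Agent.H22.ST

namespace Data

variable {ι : Type} [Fintype ι] [DecidableEq ι] {d : ℕ} (S : Data ι d)

theorem c'_pos : 0 < S.c' := lt_of_lt_of_le one_pos S.c'_ge

theorem c'_le_lam {k : Fin d} {j : ℕ} (h : j < S.g k) : S.c' ≤ S.lam k / 2 ^ j := S.g_lt k j h

theorem lam_pos {k : Fin d} {j : ℕ} (h : j < S.g k) : 0 < S.lam k := by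
  have h1 := S.c'_le_lam h
  have h2 := S.c'_pos
  have h3 : 0 < S.lam k / 2 ^ j := lt_of_lt_of_le h2 h1
  have h4 : S.lam k = S.lam k / 2 ^ j * 2 ^ j := by field_simp
  rw [h4]
  positivity

theorem lam_nonneg (k : Fin d) : 0 ≤ S.lam k := Finset.sum_nonneg fun _ _ => sq_nonneg _

theorem inv_le {k : Fin d} {j : ℕ} (h : j < S.g k) : 2 ^ j / S.lam k ≤ 1 / S.c' := by
  have h1 := S.c'_le_lam h
  have h2 := S.c'_pos
  have h3 := S.lam_pos h
  rw [div_le_div_iff₀ h3 h2]
  rw [le_div_iff₀ (by positivity)] at h1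
  linarith

theorem inv_nonneg' (k : Fin d) (j : ℕ) : 0 ≤ 2 ^ j / S.lam k :=
  div_nonneg (by positivity) (S.lam_nonneg k)

theorem M_nonneg (j : ℕ) : 0 ≤ S.M j := Finset.sum_nonneg fun k _ => S.inv_nonneg' k j

theorem M_le (j : ℕ) : S.M j ≤ d / S.c' := by
  unfold M
  calc ∑ k ∈ univ.filter (fun k : Fin d => j < S.g k), 2 ^ j / S.lam k
      ≤ ∑ k ∈ univ.filter (fun k : Fin d => j < S.g k), 1 / S.c' := by
        apply Finset.sum_le_sum
        intro k hk
        rw [Finset.mem_filter] at hk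
        exact S.inv_le hk.2
    _ ≤ ∑ k : Fin d, 1 / S.c' := by
        apply Finset.sum_le_sum_of_subset_of_nonneg (Finset.filter_subset _ _)
        intro _ _ _
        have := S.c'_pos
        positivity
    _ = d / S.c' := by
        rw [Finset.sum_const, Finset.card_univ, Fintype.card_fin, nsmul_eq_mul]
        ring

theorem M_le_one (j : ℕ) : S.M j ≤ 1 := by
  refine (S.M_le j).trans ?_
  rw [div_le_one S.c'_pos]
  exact S.d_le_c'

theorem Yinf_nonneg : 0 ≤ S.Yinf := by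
  rw [S.Yinf_eq]
  have := S.K_nonneg
  positivity

theorem R_nonneg : 0 ≤ S.R := by
  rw [S.R_eq]
  have := S.Yinf_nonneg
  positivity

include S in
theorem d_ge_one : (1 : ℝ) ≤ d := by exact_mod_cast S.d_pos

/-- geometric sum of square roots below the critical level -/
theorem sum_sqrt_le (N : ℕ) (k : Fin d) :
    ∑ i ∈ range N, (if i < S.g k then Real.sqrt (2 ^ i / S.lam k) else 0)
      ≤ 3.42 * Real.sqrt (1 / S.c') := by
  have hc := S.c'_pos
  -- stronger: the sum over i < m with m ≤ g k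
  have key : ∀ m, m ≤ S.g k → ∑ i ∈ range m, Real.sqrt (2 ^ i / S.lam k)
      ≤ 3.42 * Real.sqrt (2 ^ m / S.lam k) * 0.7072 := by
    intro m
    induction m with
    | zero =>
      intro _
      simp only [Finset.range_zero, Finset.sum_empty]
      positivity
    | succ m ih =>
      intro hm
      have ih' := ih (by omega)
      rw [Finset.sum_range_succ]
      have h1 : Real.sqrt (2 ^ m / S.lam k) ≤ 0.7072 * Real.sqrt (2 ^ (m + 1) / S.lam k) := by
        have h2 : (0.7072 : ℝ) * Real.sqrt (2 ^ (m + 1) / S.lam k)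
            = Real.sqrt (0.7072 ^ 2 * (2 ^ (m + 1) / S.lam k)) := by
          rw [Real.sqrt_mul (by norm_num), Real.sqrt_sq (by norm_num)]
        rw [h2]
        apply Real.sqrt_le_sqrt
        have h3 := S.inv_nonneg' k m
        rw [pow_succ (2 : ℝ) m]
        have h4 : (0.7072 : ℝ) ^ 2 * (2 ^ m * 2 / S.lam k) = (0.7072 ^ 2 * 2) * (2 ^ m / S.lam k) := by
          ring
        rw [h4]
        nlinarith
      have h5 := Real.sqrt_nonneg (2 ^ (m + 1) / S.lam k)
      nlinarith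
  have hsum : ∑ i ∈ range N, (if i < S.g k then Real.sqrt (2 ^ i / S.lam k) else 0)
      ≤ ∑ i ∈ range (S.g k), Real.sqrt (2 ^ i / S.lam k) := by
    rw [← Finset.sum_filter]
    apply Finset.sum_le_sum_of_subset_of_nonneg
    · intro i hi
      rw [Finset.mem_filter] at hi
      exact Finset.mem_range.mpr hi.2
    · intro _ _ _
      exact Real.sqrt_nonneg _
  refine hsum.trans ?_
  rcases Nat.eq_zero_or_pos (S.g k) with h0 | h0
  · rw [h0]
    simp only [Finset.range_zero, Finset.sum_empty]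
    positivity
  · obtain ⟨m, hm⟩ : ∃ m, S.g k = m + 1 := ⟨S.g k - 1, by omega⟩
    rw [hm, Finset.sum_range_succ]
    have h1 := key m (by omega)
    have h2 : Real.sqrt (2 ^ m / S.lam k) ≤ Real.sqrt (1 / S.c') :=
      Real.sqrt_le_sqrt (S.inv_le (by omega))
    have h3 := Real.sqrt_nonneg (2 ^ m / S.lam k)
    nlinarith

theorem sqrt_M_le (i : ℕ) : Real.sqrt (S.M i)
    ≤ ∑ k : Fin d, (if i < S.g k then Real.sqrt (2 ^ i / S.lam k) else 0) := by
  rw [← Finset.sum_filter]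
  unfold M
  generalize (univ.filter (fun k : Fin d => i < S.g k)) = s
  induction s using Finset.induction_on with
  | empty => simp
  | insert a s ha ih =>
    rw [Finset.sum_insert ha, Finset.sum_insert ha]
    have h1 := S.inv_nonneg' a i
    have h2 : 0 ≤ ∑ k ∈ s, 2 ^ i / S.lam k := Finset.sum_nonneg fun k _ => S.inv_nonneg' k i
    have h3 : Real.sqrt (2 ^ i / S.lam a + ∑ k ∈ s, 2 ^ i / S.lam k)
        ≤ Real.sqrt (2 ^ i / S.lam a) + Real.sqrt (∑ k ∈ s, 2 ^ i / S.lam k) := by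
      rw [Real.sqrt_le_left (by positivity)]
      have h4 := Real.sq_sqrt h1
      have h5 := Real.sq_sqrt h2
      have h6 := Real.sqrt_nonneg (2 ^ i / S.lam a)
      have h7 := Real.sqrt_nonneg (∑ k ∈ s, 2 ^ i / S.lam k)
      nlinarith
    linarith

theorem sum_sqrt_M_le (j : ℕ) : ∑ i ∈ range j, Real.sqrt (S.M i)
    ≤ 3.42 * d * Real.sqrt (1 / S.c') := by
  calc ∑ i ∈ range j, Real.sqrt (S.M i)
      ≤ ∑ i ∈ range j, ∑ k : Fin d,
        (if i < S.g k then Real.sqrt (2 ^ i / S.lam k) else 0) :=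
        Finset.sum_le_sum fun i _ => S.sqrt_M_le i
    _ = ∑ k : Fin d, ∑ i ∈ range j,
        (if i < S.g k then Real.sqrt (2 ^ i / S.lam k) else 0) := Finset.sum_comm
    _ ≤ ∑ k : Fin d, 3.42 * Real.sqrt (1 / S.c') :=
        Finset.sum_le_sum fun k _ => S.sum_sqrt_le j k
    _ = 3.42 * d * Real.sqrt (1 / S.c') := by
        rw [Finset.sum_const, Finset.card_univ, Fintype.card_fin, nsmul_eq_mul]
        ring

theorem sqrt_c'_pos : 0 < Real.sqrt S.c' := Real.sqrt_pos.mpr S.c'_pos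

theorem rho_nonneg (j : ℕ) : 0 ≤ S.rho j := by
  unfold rho
  apply Finset.sum_nonneg
  intro i _
  have h1 := S.R_nonneg
  have h2 := S.M_nonneg i
  positivity

theorem rho_le (j : ℕ) : S.rho j ≤ 1 / 2 := by
  have hR := S.R_nonneg
  have hΓ := S.Γ_nonneg
  have hd := S.d_ge_one
  have h1 : S.rho j ≤ (6 * S.R + 2 * Real.sqrt (2 * S.Γ * d)) *
      ∑ i ∈ range j, Real.sqrt (S.M i) := by
    unfold rho
    rw [Finset.mul_sum]
    apply Finset.sum_le_sum
    intro i _
    have h2 := S.M_nonneg i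
    have h3 := S.M_le_one i
    have h4 : S.M i ≤ Real.sqrt (S.M i) := by
      have h5 := Real.sq_sqrt h2
      have h6 := Real.sqrt_nonneg (S.M i)
      have h7 : Real.sqrt (S.M i) ≤ 1 := Real.sqrt_le_one.mpr h3
      nlinarith
    have h5 : Real.sqrt (2 * S.Γ * d * S.M i) = Real.sqrt (2 * S.Γ * d) * Real.sqrt (S.M i) :=
      Real.sqrt_mul (by positivity) _
    rw [h5]
    have h6 : 6 * S.R * S.M i ≤ 6 * S.R * Real.sqrt (S.M i) :=
      mul_le_mul_of_nonneg_left h4 (by positivity)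
    linarith
  have h2 := S.sum_sqrt_M_le j
  have h3 := S.cond_c'
  have hsc := S.sqrt_c'_pos
  have h4 : Real.sqrt (1 / S.c') = 1 / Real.sqrt S.c' := by
    rw [Real.sqrt_div (by norm_num), Real.sqrt_one]
  rw [h4] at h2
  set Q := 6 * S.R + 2 * Real.sqrt (2 * S.Γ * d) with hQ
  have hQ0 : 0 ≤ Q := by positivity
  calc S.rho j ≤ Q * ∑ i ∈ range j, Real.sqrt (S.M i) := h1
    _ ≤ Q * (3.42 * d * (1 / Real.sqrt S.c')) := mul_le_mul_of_nonneg_left h2 hQ0
    _ = (3.42 * d * Q) / Real.sqrt S.c' := by ring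
    _ ≤ 1 / 2 := by
        rw [div_le_iff₀ hsc]
        nlinarith [mul_nonneg (le_trans zero_le_one hd) hQ0]

theorem B_nonneg (j : ℕ) : 0 ≤ S.B j := by
  unfold B
  have h1 := S.R_nonneg
  have h2 := S.M_nonneg j
  positivity

theorem B_le (j : ℕ) : S.B j ≤ 0.1 := by
  unfold B
  have hR := S.R_nonneg
  have hd := S.d_ge_one
  have h1 := S.M_le j
  have h3 := S.cond_c'
  have hc := S.c'_ge
  have hcp := S.c'_pos
  have h4 : Real.sqrt S.c' ≤ S.c' := by
    rw [Real.sqrt_le_left (by linarith)]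
    nlinarith
  have h5 : 0 ≤ Real.sqrt (2 * S.Γ * d) := Real.sqrt_nonneg _
  calc 2 * S.R * S.M j ≤ 2 * S.R * (d / S.c') := mul_le_mul_of_nonneg_left h1 (by positivity)
    _ = (2 * S.R * d) / S.c' := by ring
    _ ≤ 0.1 := by
        rw [div_le_iff₀ hcp]
        have h6 : 42 * (d * S.R) ≤ S.c' := by
          have : 42 * (d * S.R) ≤ 7 * d * (6 * S.R + 2 * Real.sqrt (2 * S.Γ * d)) := by
            have : 0 ≤ 7 * (d : ℝ) * (2 * Real.sqrt (2 * S.Γ * d)) := by positivity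
            linarith
          linarith
        linarith

theorem a2_ge_five : 5 ≤ S.a2 := by
  by_contra hcon
  have h1 : S.a2 ≤ 4 := by omega
  have h2 := S.a2_spec
  have h3 := S.c'_ge
  have h4 : (0.8 : ℝ) ^ 4 ≤ 0.8 ^ S.a2 := pow_le_pow_of_le_one (by norm_num) (by norm_num) h1
  have h5 : (0.4096 : ℝ) ≤ 0.8 ^ S.a2 := by
    refine le_trans ?_ h4
    norm_num
  nlinarith

theorem Γ_ge' : 12.7 ≤ S.Γ := by
  have h1 := S.Γ_ge
  have h2 : 0 ≤ Real.log d := Real.log_natCast_nonneg d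
  linarith

theorem K_ge : 50 * S.Γ ≤ S.K := by
  rw [S.K_eq]
  have h1 := S.a2_ge_five
  have h2 : (5 : ℝ) ≤ ((S.n + S.a2 : ℕ) : ℝ) := by exact_mod_cast (by omega : 5 ≤ S.n + S.a2)
  have h3 := S.Γ_nonneg
  nlinarith

theorem yb_le (s : ℕ) : S.yb s ≤ S.Yinf := by
  have hK := S.K_nonneg
  have hΓ := S.Γ_nonneg
  set S1 := Real.sqrt (2 * S.R ^ 2 * (3 * S.c' + S.K) / (S.c' * 2 ^ S.n)) with hS1
  set S2 := Real.sqrt (2 * S.R ^ 2 * (S.K + 1) / (S.c' * 2 ^ S.n)) with hS2
  set G := Real.sqrt (S.Γ * (S.K + 1)) with hG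
  have hS1n : 0 ≤ S1 := Real.sqrt_nonneg _
  have hS2n : 0 ≤ S2 := Real.sqrt_nonneg _
  have hGn : 0 ≤ G := Real.sqrt_nonneg _
  have hc1 : ((S.n + S.a2 : ℕ) : ℝ) * S1 ≤ 1 := S.cond_S1
  have hc2 : 10 * S2 ≤ 1 := S.cond_S2
  -- a closed form bound
  have key1 : ∀ s, s ≤ S.Nm + 1 → S.yb s ≤ (s : ℝ) * (Real.sqrt (S.Γ * S.Nm) + S1) ∧
      (1 ≤ s → S.yb s ≤ ((s : ℝ) - 1) * (Real.sqrt (S.Γ * S.Nm) + S1)) := by
    intro s
    induction s with
    | zero =>
      intro _
      refine ⟨?_, fun h => absurd h (by omega)⟩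
      simp [yb]
    | succ s ih =>
      intro hs
      have h1 := ih (by omega)
      have h2 : 0 ≤ Real.sqrt (S.Γ * S.Nm) + S1 := by positivity
      rw [S.yb_succ']
      rcases Nat.eq_zero_or_pos s with h0 | h0
      · subst h0
        have h3 : S.inc 0 = 0 := by unfold inc; rw [if_pos rfl]
        have h4 : S.yb 0 = 0 := by simp [yb]
        rw [h3, h4]
        push_cast
        constructor
        · linarith
        · intro _; linarith
      · have h3 : S.inc s = Real.sqrt (S.Γ * S.Nm) + S1 := by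
          unfold inc
          rw [if_neg (by omega), if_pos (by omega)]
        rw [h3]
        have h4 := h1.2 h0
        push_cast
        constructor
        · linarith
        · intro _; linarith
  have key2 : ∀ m, S.yb (S.Nm + 1 + m) ≤ (S.Nm : ℝ) * (Real.sqrt (S.Γ * S.Nm) + S1)
      + G * (1 - 0.94 ^ m) / 0.06 + S2 * (1 - 0.9 ^ m) / 0.1
      + (S.K + 1) / 0.85 * (1 - (0.8 / 0.85) ^ m) / (1 - 0.8 / 0.85) := by
    intro m
    induction m with
    | zero =>
      have h1 := (key1 (S.Nm + 1) le_rfl).2 (by omega)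
      simp only [add_zero, pow_zero, sub_self, mul_zero, zero_div]
      push_cast at h1
      linarith
    | succ m ih =>
      have h1 : S.yb (S.Nm + 1 + (m + 1)) = S.yb (S.Nm + 1 + m) + S.inc (S.Nm + 1 + m) := by
        rw [show S.Nm + 1 + (m + 1) = (S.Nm + 1 + m) + 1 by ring, S.yb_succ']
      have h2 : S.inc (S.Nm + 1 + m) = G * 0.94 ^ m + S2 * 0.9 ^ m
          + (S.K + 1) / 0.85 * (0.8 / 0.85) ^ m := by
        unfold inc
        rw [if_neg (by omega), if_neg (by omega)]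
        have : S.Nm + 1 + m - S.Nm - 1 = m := by omega
        rw [this]
      rw [h1, h2]
      have e1 : G * (1 - 0.94 ^ (m + 1)) / 0.06 = G * (1 - 0.94 ^ m) / 0.06 + G * 0.94 ^ m := by
        rw [pow_succ]; ring
      have e2 : S2 * (1 - 0.9 ^ (m + 1)) / 0.1 = S2 * (1 - 0.9 ^ m) / 0.1 + S2 * 0.9 ^ m := by
        rw [pow_succ]; ring
      have e3 : (S.K + 1) / 0.85 * (1 - (0.8 / 0.85) ^ (m + 1)) / (1 - 0.8 / 0.85)
          = (S.K + 1) / 0.85 * (1 - (0.8 / 0.85) ^ m) / (1 - 0.8 / 0.85)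
            + (S.K + 1) / 0.85 * (0.8 / 0.85) ^ m := by
        rw [pow_succ]
        generalize ((0.8 : ℝ) / 0.85) ^ m = t
        norm_num
        ring
      rw [e1, e2, e3]
      linarith
  have hfin : ∀ m, S.yb (S.Nm + 1 + m) ≤ S.Yinf := by
    intro m
    refine (key2 m).trans ?_
    rw [S.Yinf_eq]
    have h1 : G * (1 - 0.94 ^ m) / 0.06 ≤ 17 * G := by
      have : 0 ≤ (0.94 : ℝ) ^ m := by positivity
      rw [div_le_iff₀ (by norm_num)]
      nlinarith
    have h2 : S2 * (1 - 0.9 ^ m) / 0.1 ≤ 1 := by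
      have : 0 ≤ (0.9 : ℝ) ^ m := by positivity
      rw [div_le_iff₀ (by norm_num)]
      nlinarith
    have h3 : (S.K + 1) / 0.85 * (1 - (0.8 / 0.85) ^ m) / (1 - 0.8 / 0.85)
        ≤ 20 * (S.K + 1) := by
      have : 0 ≤ ((0.8 : ℝ) / 0.85) ^ m := by positivity
      rw [div_le_iff₀ (by norm_num)]
      have h4 : (S.K + 1) / 0.85 * (1 - (0.8 / 0.85) ^ m) ≤ (S.K + 1) / 0.85 := by
        have h5 : 0 ≤ (S.K + 1) / 0.85 := by positivity
        nlinarith
      refine h4.trans ?_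
      rw [div_le_iff₀ (by norm_num)]
      nlinarith
    have h4 : (S.Nm : ℝ) * (Real.sqrt (S.Γ * S.Nm) + S1)
        ≤ ((S.n + S.a2 : ℕ) : ℝ) * Real.sqrt (S.Γ * (S.n + S.a2 : ℕ)) + 1 := by
      unfold Nm
      rw [mul_add]
      linarith
    linarith
  have hmono : ∀ a b, a ≤ b → S.yb a ≤ S.yb b := by
    intro a b hab
    unfold yb
    exact Finset.sum_le_sum_of_subset_of_nonneg (Finset.range_mono hab)
      (fun i _ _ => S.inc_nonneg' i)
  exact (hmono s (S.Nm + 1 + s) (by omega)).trans (hfin s)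

theorem Yb_rec_mid (a : ℕ) (ha : a < S.a2) :
    0.6 * S.Yb a + Real.sqrt (S.Γ * S.Nm * S.Yb a) ≤ S.Yb (a + 1) := by
  have hΓ := S.Γ_nonneg
  have hK := S.K_nonneg
  have hc := S.c'_pos
  have hKe : S.K = 10 * (S.Γ * S.Nm) := by
    rw [S.K_eq]; unfold Nm; ring
  set X := 3 * S.c' * 0.8 ^ a with hX
  have hX0 : 0 ≤ X := by positivity
  have hYa : S.Yb a = X + S.K := by
    unfold Yb; rw [if_pos ha]
  have h1 : Real.sqrt (S.Γ * S.Nm * (X + S.K)) ≤ 0.2 * X + 0.4 * S.K := by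
    rw [Real.sqrt_le_left (by positivity)]
    have h2 : S.Γ * S.Nm = S.K / 10 := by rw [hKe]; ring
    rw [h2]
    nlinarith [mul_nonneg hX0 hK]
  rw [hYa]
  by_cases ha1 : a + 1 < S.a2
  · have h2 : S.Yb (a + 1) = 0.8 * X + S.K := by
      unfold Yb
      rw [if_pos ha1, hX, pow_succ]
      ring
    rw [h2]
    linarith
  · have hae : a + 1 = S.a2 := by omega
    have h2 : S.Yb (a + 1) = S.K + 1 := by
      unfold Yb
      rw [if_neg ha1, hae, Nat.sub_self, pow_zero, mul_one]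
    have h3 : 0.8 * X ≤ 1 := by
      have h4 := S.a2_spec
      rw [← hae, pow_succ] at h4
      rw [hX]
      linarith
    rw [h2]
    linarith

theorem Yb_rec_old (a : ℕ) (ha : S.a2 ≤ a) :
    0.6 * S.Yb a + Real.sqrt (S.Γ * (S.K + 1) * (0.64 : ℝ) ^ (a - S.a2)) ≤ S.Yb (a + 1) := by
  have hΓ := S.Γ_nonneg
  have hK := S.K_nonneg
  have hK2 := S.K_ge
  rw [S.Yb_old ha, S.Yb_old (by omega : S.a2 ≤ a + 1)]
  have e1 : a + 1 - S.a2 = (a - S.a2) + 1 := by omega
  rw [e1]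
  set m := a - S.a2
  have h1 : Real.sqrt (S.Γ * (S.K + 1) * (0.64 : ℝ) ^ m)
      = Real.sqrt (S.Γ * (S.K + 1)) * 0.8 ^ m := by
    rw [Real.sqrt_mul (by positivity)]
    congr 1
    have : (0.64 : ℝ) ^ m = (0.8 ^ m) ^ 2 := by
      rw [← pow_mul, mul_comm, pow_mul]; norm_num
    rw [this, Real.sqrt_sq (by positivity)]
  have h2 : Real.sqrt (S.Γ * (S.K + 1)) ≤ 0.2 * (S.K + 1) := by
    rw [Real.sqrt_le_left (by positivity)]
    nlinarith
  rw [h1, pow_succ]
  have h3 : 0 ≤ (0.8 : ℝ) ^ m := by positivity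
  nlinarith

end Data

end Vale.Agent.H22.ST
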