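import Vale.Agent.H22.ST.L2

/-!
# L3: the bias
-/

set_option linter.unusedSectionVars false

noncomputable section

open Finset

namespace Vale.Agent.H22.ST

namespace Data

variable {ι : Type} [Fintype ι] [DecidableEq ι] {d : ℕ} (S : Data ι d)

/-- weighted Cauchy-Schwarz -/
theorem wcs {κ : Type} (s : Finset κ) (q y w : κ → ℝ) (hq : ∀ k ∈ s, 0 < q k) :
    (∑ k ∈ s, y k * w k) ^ 2 ≤ (∑ k ∈ s, q k * (y k) ^ 2) * ∑ k ∈ s, (w k) ^ 2 / q k := by
  have h := Finset.sum_mul_sq_le_sq_mul_sq s (fun k => Real.sqrt (q k) * y k)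
    (fun k => w k / Real.sqrt (q k))
  have e1 : ∑ k ∈ s, Real.sqrt (q k) * y k * (w k / Real.sqrt (q k)) = ∑ k ∈ s, y k * w k := by
    refine Finset.sum_congr rfl fun k hk => ?_
    have := (Real.sqrt_pos.2 (hq k hk)).ne'
    field_simp
  have e2 : ∑ k ∈ s, (Real.sqrt (q k) * y k) ^ 2 = ∑ k ∈ s, q k * (y k) ^ 2 := by
    refine Finset.sum_congr rfl fun k hk => ?_
    rw [mul_pow, Real.sq_sqrt (hq k hk).le]
  have e3 : ∑ k ∈ s, (w k / Real.sqrt (q k)) ^ 2 = ∑ k ∈ s, (w k) ^ 2 / q k := by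
    refine Finset.sum_congr rfl fun k hk => ?_
    rw [div_pow, Real.sq_sqrt (hq k hk).le]
  rw [e1, e2, e3] at h
  exact h

/-- L3: the bias -/
theorem exists_bias (j : ℕ) (A : Finset ι) (h1 : S.I1 j A) (a : Fin d → ℝ)
    (ha : ∑ k, (a k) ^ 2 ≤ S.R ^ 2) : ∃ β : ι → ℝ, S.GoodBias j A a β := by
  classical
  set T : Finset (Fin d) := univ.filter (fun k => j < S.g k) with hT
  set q : Fin d → ℝ := fun k => S.lam k / 2 ^ j with hq
  have hqpos : ∀ k ∈ T, 0 < q k := by
    intro k hk
    have := S.lam_pos (k := k) (j := j) (by simpa [hT] using hk)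
    simp only [hq]
    positivity
  have hTmem : ∀ k, k ∈ T ↔ j < S.g k := fun k => by simp [hT]
  -- the linear map
  let L : ({k // j < S.g k} → ℝ) →ₗ[ℝ] ({k // j < S.g k} → ℝ) :=
    { toFun := fun y k => ∑ i ∈ A, (∑ l, y l * S.v i l.1) * S.v i k.1
      map_add' := by
        intro y z
        funext k
        simp only [Pi.add_apply, add_mul, Finset.sum_add_distrib]
      map_smul' := by
        intro c y
        funext k
        simp only [Pi.smul_apply, smul_eq_mul, RingHom.id_apply, Finset.mul_sum, mul_assoc,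
          Finset.sum_mul] }
  -- extension by zero
  let ext : ({k // j < S.g k} → ℝ) → Fin d → ℝ := fun y k => if h : j < S.g k then y ⟨k, h⟩ else 0
  have hext0 : ∀ y k, ¬ j < S.g k → ext y k = 0 := fun y k hk => by simp [ext, hk]
  have hsub : ∀ (y : {k // j < S.g k} → ℝ) (F : Fin d → ℝ),
      ∑ l : {k // j < S.g k}, y l * F l.1 = ∑ k, ext y k * F k := by
    intro y F
    have e1 : ∑ k, ext y k * F k = ∑ k ∈ T, ext y k * F k := by
      symm
      refine Finset.sum_subset (Finset.subset_univ _) fun k _ hk => ?_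
      rw [hTmem] at hk
      rw [hext0 y k hk, zero_mul]
    have e2 : ∑ k ∈ T, ext y k * F k = ∑ l : {k // j < S.g k}, ext y l.1 * F l.1 :=
      Finset.sum_subtype T hTmem _
    rw [e1, e2]
    refine Finset.sum_congr rfl fun l _ => ?_
    simp [ext, l.2]
  have hquad : ∀ y : {k // j < S.g k} → ℝ,
      ∑ k, y k * L y k = ∑ i ∈ A, (∑ k, ext y k * S.v i k) ^ 2 := by
    intro y
    have e1 : ∀ k, y k * L y k = ∑ i ∈ A, (∑ l, y l * S.v i l.1) * (y k * S.v i k.1) := by
      intro k
      show y k * (∑ i ∈ A, (∑ l, y l * S.v i l.1) * S.v i k.1) = _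
      rw [Finset.mul_sum]
      exact Finset.sum_congr rfl fun i _ => by ring
    simp only [e1]
    rw [Finset.sum_comm]
    refine Finset.sum_congr rfl fun i _ => ?_
    rw [← Finset.mul_sum, hsub y (fun k => S.v i k), sq]
  have hlow : ∀ y : {k // j < S.g k} → ℝ,
      (1 / 2) * ∑ k, q k * (ext y k) ^ 2 ≤ ∑ k, y k * L y k := by
    intro y
    rw [hquad y]
    have h2 := h1 (ext y) (hext0 y)
    have h3 := S.rho_le j
    have h4 : 0 ≤ ∑ k, S.lam k / 2 ^ j * (ext y k) ^ 2 :=
      Finset.sum_nonneg fun k _ => by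
        have := S.lam_nonneg k
        positivity
    have h5 := (abs_le.1 h2).1
    have h6 : S.rho j * ∑ k, S.lam k / 2 ^ j * (ext y k) ^ 2
        ≤ 1 / 2 * ∑ k, S.lam k / 2 ^ j * (ext y k) ^ 2 := mul_le_mul_of_nonneg_right h3 h4
    simp only [hq]
    linarith
  have hqT : ∀ y : {k // j < S.g k} → ℝ,
      ∑ k, q k * (ext y k) ^ 2 = ∑ k ∈ T, q k * (ext y k) ^ 2 := by
    intro y
    symm
    refine Finset.sum_subset (Finset.subset_univ _) fun k _ hk => ?_
    rw [hTmem] at hk
    rw [hext0 y k hk]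
    ring
  have hinj : Function.Injective L := by
    rw [← LinearMap.ker_eq_bot, LinearMap.ker_eq_bot']
    intro y hy
    have h2 := hlow y
    have h3 : ∑ k, y k * L y k = 0 := by
      rw [hy]; simp
    rw [h3, hqT y] at h2
    have h4 : ∀ k ∈ T, 0 ≤ q k * (ext y k) ^ 2 := fun k hk => by
      have := hqpos k hk
      positivity
    have h5 : ∑ k ∈ T, q k * (ext y k) ^ 2 = 0 :=
      le_antisymm (by linarith) (Finset.sum_nonneg h4)
    have h6 := (Finset.sum_eq_zero_iff_of_nonneg h4).1 h5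
    funext k
    have h7 := h6 k.1 ((hTmem _).2 k.2)
    have h8 := hqpos k.1 ((hTmem _).2 k.2)
    have h9 : ext y k.1 = 0 := by
      have := (mul_eq_zero.1 h7).resolve_left h8.ne'
      exact pow_eq_zero_iff (two_ne_zero) |>.1 this
    have h10 : ext y k.1 = y k := by
      simp [ext, k.2]
    rw [← h10, h9]
    rfl
  have hsurj : Function.Surjective L := LinearMap.injective_iff_surjective.1 hinj
  obtain ⟨y, hy⟩ := hsurj (fun k => if j + S.n < S.g k.1 then - a k.1 else 0)
  have hβ : ∀ i, ∑ k, ext y k * S.v i k = ∑ l : {k // j < S.g k}, y l * S.v i l.1 :=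
    fun i => (hsub y (fun k => S.v i k)).symm
  have hL : ∀ k : {k // j < S.g k}, ∑ i ∈ A, (∑ l, ext y l * S.v i l) * S.v i k.1
      = if j + S.n < S.g k.1 then - a k.1 else 0 := by
    intro k
    have := congrFun hy k
    simp only [hβ]
    exact this
  -- estimates
  set N2 : ℝ := ∑ k ∈ T, q k * (ext y k) ^ 2 with hN2
  set T2 : Finset (Fin d) := univ.filter (fun k => j + S.n < S.g k) with hT2
  have hT2T : T2 ⊆ T := by
    intro k hk
    rw [hTmem]
    simp only [hT2, Finset.mem_filter, Finset.mem_univ, true_and] at hk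
    omega
  set α2 : ℝ := ∑ k ∈ T2, (a k) ^ 2 / q k with hα2
  have hα20 : 0 ≤ α2 := Finset.sum_nonneg fun k hk => by
    have := hqpos k (hT2T hk)
    positivity
  have hN20 : 0 ≤ N2 := Finset.sum_nonneg fun k hk => by
    have := hqpos k hk
    positivity
  have hE : ∑ i ∈ A, (∑ k, ext y k * S.v i k) ^ 2 = ∑ k ∈ T2, ext y k * (- a k) := by
    rw [← hquad y, hy]
    rw [hsub y (fun k => if j + S.n < S.g k then - a k else 0)]
    rw [hT2, Finset.sum_filter]
    refine Finset.sum_congr rfl fun k _ => ?_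
    split_ifs <;> simp
  set Eβ : ℝ := ∑ i ∈ A, (∑ k, ext y k * S.v i k) ^ 2 with hEβ
  have hE1 : (1 / 2) * N2 ≤ Eβ := by
    have := hlow y
    rw [hquad y, hqT y] at this
    exact this
  have hE2 : Eβ ^ 2 ≤ N2 * α2 := by
    rw [hE]
    have h2 := wcs T2 q (ext y) (fun k => - a k) (fun k hk => hqpos k (hT2T hk))
    simp only [neg_sq] at h2
    refine h2.trans (mul_le_mul_of_nonneg_right ?_ hα20)
    refine Finset.sum_le_sum_of_subset_of_nonneg hT2T fun k hk _ => ?_
    have := hqpos k hk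
    positivity
  have hE0 : 0 ≤ Eβ := Finset.sum_nonneg fun i _ => sq_nonneg _
  have hE3 : Eβ ≤ 2 * α2 := by
    by_contra hcon
    push Not at hcon
    have h3 : 0 < Eβ := lt_of_le_of_lt (by positivity) hcon
    have h4 : N2 * α2 ≤ 2 * Eβ * α2 := mul_le_mul_of_nonneg_right (by linarith) hα20
    nlinarith
  have hN24 : N2 ≤ 4 * α2 := by linarith
  have hαb4 : α2 ≤ S.R ^ 2 / (S.c' * 2 ^ S.n) := by
    have hc := S.c'_pos
    have h5 : ∀ k ∈ T2, (a k) ^ 2 / q k ≤ (a k) ^ 2 / (S.c' * 2 ^ S.n) := by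
      intro k hk
      have hk' : j + S.n < S.g k := by simpa [hT2] using hk
      refine div_le_div_of_nonneg_left (sq_nonneg _) (by positivity) ?_
      have h6 := S.c'_le_lam hk'
      rw [pow_add] at h6
      simp only [hq]
      rw [le_div_iff₀ (by positivity)] at h6 ⊢
      linarith
    calc α2 ≤ ∑ k ∈ T2, (a k) ^ 2 / (S.c' * 2 ^ S.n) := Finset.sum_le_sum h5
      _ = (∑ k ∈ T2, (a k) ^ 2) / (S.c' * 2 ^ S.n) := by rw [Finset.sum_div]
      _ ≤ (∑ k, (a k) ^ 2) / (S.c' * 2 ^ S.n) := by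
          refine div_le_div_of_nonneg_right ?_ (by positivity)
          exact Finset.sum_le_sum_of_subset_of_nonneg (Finset.subset_univ _)
            fun k _ _ => sq_nonneg _
      _ ≤ _ := div_le_div_of_nonneg_right ha (by positivity)
  have hinvM : ∀ k ∈ T, 1 / q k ≤ S.M j := by
    intro k hk
    unfold M
    have h7 : 1 / q k = 2 ^ j / S.lam k := by
      simp only [hq]
      rw [one_div, inv_div]
    rw [h7]
    exact Finset.single_le_sum (f := fun k => 2 ^ j / S.lam k)
      (fun k _ => S.inv_nonneg' k j) hk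
  have hαM : α2 ≤ S.R ^ 2 * S.M j := by
    calc α2 ≤ ∑ k ∈ T2, (a k) ^ 2 * S.M j := by
          refine Finset.sum_le_sum fun k hk => ?_
          rw [div_eq_mul_one_div]
          exact mul_le_mul_of_nonneg_left (hinvM k (hT2T hk)) (sq_nonneg _)
      _ = (∑ k ∈ T2, (a k) ^ 2) * S.M j := by rw [Finset.sum_mul]
      _ ≤ (∑ k, (a k) ^ 2) * S.M j := by
          refine mul_le_mul_of_nonneg_right ?_ (S.M_nonneg j)
          exact Finset.sum_le_sum_of_subset_of_nonneg (Finset.subset_univ _)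
            fun k _ _ => sq_nonneg _
      _ ≤ _ := mul_le_mul_of_nonneg_right ha (S.M_nonneg j)
  refine ⟨fun i => ∑ k, ext y k * S.v i k, ?_, ?_, ?_, ?_⟩
  · intro k hk
    have := hL ⟨k, by omega⟩
    simpa [hk] using this
  · intro k hk hk2
    have := hL ⟨k, hk⟩
    simpa [not_lt.2 hk2] using this
  · intro i
    unfold B
    refine abs_le_of_sq_le_sq ?_ (by
      have := S.R_nonneg
      have := S.M_nonneg j
      positivity)
    have h8 : ∑ k, ext y k * S.v i k = ∑ k ∈ T, ext y k * S.v i k := by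
      symm
      refine Finset.sum_subset (Finset.subset_univ _) fun k _ hk => ?_
      rw [hTmem] at hk
      rw [hext0 y k hk, zero_mul]
    rw [h8]
    have h9 := wcs T q (ext y) (fun k => S.v i k) hqpos
    have h10 : ∑ k ∈ T, (S.v i k) ^ 2 / q k ≤ S.M j := by
      calc ∑ k ∈ T, (S.v i k) ^ 2 / q k ≤ ∑ k ∈ T, (S.v i k) ^ 2 * S.M j := by
            refine Finset.sum_le_sum fun k hk => ?_
            rw [div_eq_mul_one_div]
            exact mul_le_mul_of_nonneg_left (hinvM k hk) (sq_nonneg _)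
        _ = (∑ k ∈ T, (S.v i k) ^ 2) * S.M j := by rw [Finset.sum_mul]
        _ ≤ 1 * S.M j := by
            refine mul_le_mul_of_nonneg_right ?_ (S.M_nonneg j)
            refine le_trans ?_ (S.norm_le i)
            exact Finset.sum_le_sum_of_subset_of_nonneg (Finset.subset_univ _)
              fun k _ _ => sq_nonneg _
        _ = _ := one_mul _
    calc _ ≤ N2 * ∑ k ∈ T, (S.v i k) ^ 2 / q k := h9
      _ ≤ N2 * S.M j := mul_le_mul_of_nonneg_left h10 hN20
      _ ≤ (4 * (S.R ^ 2 * S.M j)) * S.M j :=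
          mul_le_mul_of_nonneg_right (by linarith) (S.M_nonneg j)
      _ = _ := by ring
  · calc Eβ ≤ 2 * α2 := hE3
      _ ≤ 2 * (S.R ^ 2 / (S.c' * 2 ^ S.n)) := by linarith
      _ = _ := by ring

end Data

end Vale.Agent.H22.ST
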