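import Vale.Agent.H22.ST.L4a
import Vale.Agent.H22.ST.L1

/-!
# The rounding of a block
-/

set_option linter.unusedSectionVars false

noncomputable section

open Finset

namespace Vale.Agent.H22.ST

/-- decay of the weights of the old groups -/
def sig : ℝ := 0.8 / 0.94 ^ 2

theorem sig_pos : 0 < sig := by unfold sig; norm_num
theorem sig_lt : sig < 1 := by unfold sig; norm_num
theorem inv_one_sub_sig : 1 / (1 - sig) ≤ 10.6 := by unfold sig; norm_num

namespace Data

variable {ι : Type} [Fintype ι] [DecidableEq ι] {d : ℕ} (S : Data ι d)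

theorem dg_ge_one (k : Fin d) : 1 ≤ S.dg (S.g k) := by
  unfold dg
  have : 0 < (univ.filter (fun l : Fin d => S.g l = S.g k)).card :=
    Finset.card_pos.mpr ⟨k, by simp⟩
  exact_mod_cast this

theorem Yb_pos (a : ℕ) : 0 < S.Yb a := by
  unfold Yb
  have h1 := S.K_nonneg
  have h2 := S.c'_pos
  split_ifs
  · positivity
  · positivity

theorem Nm_pos : (0 : ℝ) < S.Nm := by
  have := S.a2_ge_five
  unfold Nm
  exact_mod_cast (by omega : 0 < S.n + S.a2)

/-- coefficients of the linear tests -/
def cw (j : ℕ) (k : Fin d) : ℝ :=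
  if j + S.n < S.g k then 1 / Real.sqrt ((k : ℝ) - S.pj j + 1)
  else if j < S.g k + S.a2 then 1 / Real.sqrt (S.dg (S.g k) * S.Nm) else 0

def c1 (j : ℕ) (k : Fin d) : ℝ :=
  if S.g k + S.a2 ≤ j then
    Real.sqrt (sig ^ (j - (S.g k + S.a2)) / (S.dg (S.g k) * S.Yb (j - S.g k))) else 0

def c2 (j : ℕ) (k : Fin d) : ℝ :=
  if S.g k + S.a2 ≤ j then
    Real.sqrt (sig ^ (j - (S.g k + S.a2)) / (S.dg (S.g k) * S.Yb (j - S.g k) * S.thr j k))
  else if S.g k ≤ j then 1 / Real.sqrt (S.dg (S.g k) * S.Nm * S.Yb (j - S.g k)) else 0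

def c3 (j : ℕ) (k l : Fin d) : ℝ :=
  if j < S.g k ∧ j < S.g l then
    1 / Real.sqrt ((S.lam k / 2 ^ j) * (S.lam l / 2 ^ j) * (2 * d * S.M j)) else 0

theorem rich_pj {j : ℕ} {k : Fin d} (h : j + S.n < S.g k) : S.pj j ≤ (k : ℕ) := by
  by_contra hcon
  have := (S.nonrich_iff j k).mpr (not_le.mp hcon)
  omega

/-- the window of middle groups -/
def winMid (j : ℕ) : Finset ℕ := (Finset.Icc (j + 1 - S.a2) (j + S.n))

theorem card_winMid (j : ℕ) : ((S.winMid j).card : ℝ) ≤ S.Nm := by
  unfold winMid Nm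
  rw [Nat.card_Icc]
  have := S.a2_ge_five
  exact_mod_cast (by omega : j + S.n + 1 - (j + 1 - S.a2) ≤ S.n + S.a2)

theorem sum_const_group_le (x : ℕ) : ∑ k ∈ univ.filter (fun k : Fin d => S.g k = x), (1 : ℝ)
    ≤ S.dg x * 1 := by
  rw [Finset.sum_const, nsmul_eq_mul]
  exact le_rfl

theorem cost_w (j : ℕ) : ∑ k, (S.cw j k) ^ 2 ≤ (1 + Real.log d) + 1 := by
  have hN := S.Nm_pos
  have hsplit : ∑ k, (S.cw j k) ^ 2
      ≤ ∑ k ∈ univ.filter (fun k : Fin d => S.pj j ≤ (k : ℕ)), 1 / ((k : ℝ) - S.pj j + 1)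
        + ∑ k ∈ univ.filter (fun k : Fin d => S.g k ≤ j + S.n ∧ j < S.g k + S.a2),
          (1 / (S.dg (S.g k) * S.Nm)) * 1 := by
    rw [Finset.sum_filter, Finset.sum_filter, ← Finset.sum_add_distrib]
    apply Finset.sum_le_sum
    intro k _
    unfold cw
    have hdg := S.dg_ge_one k
    have ha0 : 0 ≤ (if S.pj j ≤ (k : ℕ) then 1 / ((k : ℝ) - S.pj j + 1) else 0) := by
      split_ifs with h5
      · have : ((S.pj j : ℕ) : ℝ) ≤ ((k : ℕ) : ℝ) := by exact_mod_cast h5
        apply div_nonneg zero_le_one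
        linarith
      · exact le_rfl
    have hb0 : 0 ≤ (if S.g k ≤ j + S.n ∧ j < S.g k + S.a2 then
        1 / (S.dg (S.g k) * S.Nm) * 1 else 0) := by
      split_ifs
      · positivity
      · exact le_rfl
    by_cases h1 : j + S.n < S.g k
    · have h2 := S.rich_pj h1
      have h3 : (0 : ℝ) < (k : ℝ) - S.pj j + 1 := by
        have : ((S.pj j : ℕ) : ℝ) ≤ ((k : ℕ) : ℝ) := by exact_mod_cast h2
        linarith
      rw [if_pos h1, div_pow, one_pow, Real.sq_sqrt h3.le]
      have h4 : (if S.pj j ≤ (k : ℕ) then 1 / ((k : ℝ) - S.pj j + 1) else 0)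
          = 1 / ((k : ℝ) - S.pj j + 1) := if_pos h2
      linarith
    · rw [if_neg h1]
      by_cases h2 : j < S.g k + S.a2
      · rw [if_pos h2, div_pow, one_pow, Real.sq_sqrt (by positivity)]
        have h4 : (if S.g k ≤ j + S.n ∧ j < S.g k + S.a2 then
          1 / (S.dg (S.g k) * S.Nm) * 1 else 0) = 1 / (S.dg (S.g k) * S.Nm) * 1 :=
          if_pos ⟨by omega, h2⟩
        linarith
      · rw [if_neg h2]
        have : (0 : ℝ) ^ 2 = 0 := by norm_num
        linarith
  refine hsplit.trans (add_le_add (sum_rich_le d _ S.d_pos) ?_)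
  have h1 := S.group_sum (fun x => x ≤ j + S.n ∧ j < x + S.a2)
    ((S.winMid j).filter (fun x => x ≤ j + S.n ∧ j < x + S.a2))
    (by
      intro k hk
      rw [Finset.mem_filter]
      refine ⟨?_, hk⟩
      unfold winMid
      rw [Finset.mem_Icc]
      omega)
    (fun x hx => (Finset.mem_filter.mp hx).2)
    (fun x => 1 / (S.dg x * S.Nm)) (fun _ => 1)
    (fun x _ => by
      have := S.dg_nonneg x
      positivity) (fun _ => 1) (fun x _ => S.sum_const_group_le x)
  refine h1.trans ?_
  calc ∑ x ∈ (S.winMid j).filter (fun x => x ≤ j + S.n ∧ j < x + S.a2),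
        1 / (S.dg x * S.Nm) * (S.dg x * 1)
      ≤ ∑ x ∈ (S.winMid j).filter (fun x => x ≤ j + S.n ∧ j < x + S.a2), 1 / (S.Nm : ℝ) := by
        apply Finset.sum_le_sum
        intro x _
        rcases eq_or_lt_of_le (S.dg_nonneg x) with h0 | h0
        · rw [← h0]; simp
        · rw [mul_one]
          apply le_of_eq
          field_simp
    _ ≤ ∑ x ∈ S.winMid j, 1 / (S.Nm : ℝ) := by
        apply Finset.sum_le_sum_of_subset_of_nonneg (Finset.filter_subset _ _)
        intro _ _ _
        positivity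
    _ = (S.winMid j).card * (1 / (S.Nm : ℝ)) := by rw [Finset.sum_const, nsmul_eq_mul]
    _ ≤ S.Nm * (1 / (S.Nm : ℝ)) :=
        mul_le_mul_of_nonneg_right (S.card_winMid j) (by positivity)
    _ = 1 := by field_simp

/-- sum over the old groups -/
theorem old_sum_le {j : ℕ} {A : Finset ι} (h2 : S.I2 j A) :
    ∑ k ∈ univ.filter (fun k : Fin d => S.g k + S.a2 ≤ j),
      sig ^ (j - (S.g k + S.a2)) / (S.dg (S.g k) * S.Yb (j - S.g k)) * S.En j k A ≤ 10.6 := by
  have hs := sig_pos
  have h1 := S.group_sum (fun x => x + S.a2 ≤ j)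
    ((Finset.range (j - S.a2 + 1)).filter (fun x => x + S.a2 ≤ j))
    (by
      intro k hk
      rw [Finset.mem_filter, Finset.mem_range]
      exact ⟨by omega, hk⟩)
    (fun x hx => (Finset.mem_filter.mp hx).2)
    (fun x => sig ^ (j - (x + S.a2)) / (S.dg x * S.Yb (j - x))) (fun x => S.Yb (j - x))
    (fun x _ => by
      have h3 := S.dg_nonneg x
      have h4 := (S.Yb_pos (j - x)).le
      positivity) (fun k => S.En j k A)
    (fun x hx => S.sum_En_le h2 (by have := (Finset.mem_filter.mp hx).2; omega)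
      (S.Yb_nonneg _))
  refine h1.trans ?_
  calc ∑ x ∈ (Finset.range (j - S.a2 + 1)).filter (fun x => x + S.a2 ≤ j),
        sig ^ (j - (x + S.a2)) / (S.dg x * S.Yb (j - x)) * (S.dg x * S.Yb (j - x))
      ≤ ∑ x ∈ (Finset.range (j - S.a2 + 1)).filter (fun x => x + S.a2 ≤ j),
        sig ^ (j - S.a2 - x) := by
        apply Finset.sum_le_sum
        intro x hx
        have hx2 := (Finset.mem_filter.mp hx).2
        have h5 : j - (x + S.a2) = j - S.a2 - x := by omega
        rw [h5]
        have h6 := S.Yb_pos (j - x)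
        rcases eq_or_lt_of_le (S.dg_nonneg x) with h0 | h0
        · rw [← h0]; simp; positivity
        · rw [div_mul_cancel₀ _ (by positivity)]
    _ ≤ ∑ x ∈ Finset.range (j - S.a2 + 1), sig ^ (j - S.a2 - x) := by
        apply Finset.sum_le_sum_of_subset_of_nonneg (Finset.filter_subset _ _)
        intro _ _ _
        positivity
    _ ≤ 1 / (1 - sig) := sum_sig_le _ hs.le sig_lt
    _ ≤ 10.6 := inv_one_sub_sig

theorem cost_1 {j : ℕ} {A : Finset ι} (h2 : S.I2 j A) :
    ∑ k, ∑ i ∈ A, (S.c1 j k * S.f j k i) ^ 2 ≤ 10.6 := by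
  refine le_trans (le_of_eq ?_) (S.old_sum_le h2)
  rw [Finset.sum_filter]
  apply Finset.sum_congr rfl
  intro k _
  have hdg := S.dg_ge_one k
  have hY := S.Yb_pos (j - S.g k)
  have hs := sig_pos
  unfold c1
  split_ifs with h
  · simp only [mul_pow]
    rw [Real.sq_sqrt (by positivity), ← Finset.mul_sum]
    rfl
  · simp

theorem f_pow_four_le (j : ℕ) (k : Fin d) (i : ι) :
    ((S.f j k i) ^ 2) ^ 2 ≤ S.thr j k * (S.f j k i) ^ 2 := by
  have h1 := S.f_sq_le_thr j k i
  have h2 := sq_nonneg (S.f j k i)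
  nlinarith

theorem cost_2 {j : ℕ} {A : Finset ι} (h2 : S.I2 j A) :
    ∑ k, ∑ i ∈ A, (S.c2 j k * (S.f j k i) ^ 2) ^ 2 ≤ 10.6 + 1 := by
  have hN := S.Nm_pos
  have hsplit : ∑ k, ∑ i ∈ A, (S.c2 j k * (S.f j k i) ^ 2) ^ 2
      ≤ ∑ k ∈ univ.filter (fun k : Fin d => S.g k + S.a2 ≤ j),
          sig ^ (j - (S.g k + S.a2)) / (S.dg (S.g k) * S.Yb (j - S.g k)) * S.En j k A
        + ∑ k ∈ univ.filter (fun k : Fin d => S.g k ≤ j ∧ j < S.g k + S.a2),
          (1 / (S.dg (S.g k) * S.Nm * S.Yb (j - S.g k))) * S.En j k A := by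
    rw [Finset.sum_filter, Finset.sum_filter, ← Finset.sum_add_distrib]
    apply Finset.sum_le_sum
    intro k _
    have hdg := S.dg_ge_one k
    have hY := S.Yb_pos (j - S.g k)
    have hs := sig_pos
    have ht := S.thr_pos j k
    unfold c2
    by_cases h1 : S.g k + S.a2 ≤ j
    · rw [if_pos h1, if_pos h1, if_neg (by omega), add_zero]
      simp only [mul_pow]
      rw [Real.sq_sqrt (by positivity), ← Finset.mul_sum]
      have h3 : ∑ i ∈ A, ((S.f j k i) ^ 2) ^ 2 ≤ S.thr j k * S.En j k A := by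
        unfold En
        rw [Finset.mul_sum]
        exact Finset.sum_le_sum fun i _ => S.f_pow_four_le j k i
      calc sig ^ (j - (S.g k + S.a2)) / (S.dg (S.g k) * S.Yb (j - S.g k) * S.thr j k)
            * ∑ i ∈ A, ((S.f j k i) ^ 2) ^ 2
          ≤ sig ^ (j - (S.g k + S.a2)) / (S.dg (S.g k) * S.Yb (j - S.g k) * S.thr j k)
            * (S.thr j k * S.En j k A) := mul_le_mul_of_nonneg_left h3 (by positivity)
        _ = sig ^ (j - (S.g k + S.a2)) / (S.dg (S.g k) * S.Yb (j - S.g k)) * S.En j k A := by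
            field_simp
    · rw [if_neg h1, if_neg h1, zero_add]
      by_cases h3 : S.g k ≤ j
      · rw [if_pos h3, if_pos ⟨h3, by omega⟩]
        simp only [mul_pow]
        rw [div_pow, one_pow, Real.sq_sqrt (by positivity), ← Finset.mul_sum]
        apply mul_le_mul_of_nonneg_left _ (by positivity)
        unfold En
        apply Finset.sum_le_sum
        intro i _
        have h4 := S.f_pow_four_le j k i
        have h5 := S.thr_le_one j k
        have h6 := sq_nonneg (S.f j k i)
        nlinarith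
      · rw [if_neg h3, if_neg (fun h => h3 h.1)]
        simp
  refine hsplit.trans (add_le_add (S.old_sum_le h2) ?_)
  have h1 := S.group_sum (fun x => x ≤ j ∧ j < x + S.a2)
    ((S.winMid j).filter (fun x => x ≤ j ∧ j < x + S.a2))
    (by
      intro k hk
      rw [Finset.mem_filter]
      refine ⟨?_, hk⟩
      unfold winMid
      rw [Finset.mem_Icc]
      omega)
    (fun x hx => (Finset.mem_filter.mp hx).2)
    (fun x => 1 / (S.dg x * S.Nm * S.Yb (j - x))) (fun x => S.Yb (j - x))
    (fun x _ => by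
      have h3 := S.dg_nonneg x
      have h4 := (S.Yb_pos (j - x)).le
      positivity) (fun k => S.En j k A)
    (fun x hx => S.sum_En_le h2 (Finset.mem_filter.mp hx).2.1 (S.Yb_nonneg _))
  refine h1.trans ?_
  calc ∑ x ∈ (S.winMid j).filter (fun x => x ≤ j ∧ j < x + S.a2),
        1 / (S.dg x * S.Nm * S.Yb (j - x)) * (S.dg x * S.Yb (j - x))
      ≤ ∑ x ∈ (S.winMid j).filter (fun x => x ≤ j ∧ j < x + S.a2), 1 / (S.Nm : ℝ) := by
        apply Finset.sum_le_sum
        intro x _
        have h6 := S.Yb_pos (j - x)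
        rcases eq_or_lt_of_le (S.dg_nonneg x) with h0 | h0
        · rw [← h0]; simp
        · apply le_of_eq
          field_simp
    _ ≤ ∑ x ∈ S.winMid j, 1 / (S.Nm : ℝ) := by
        apply Finset.sum_le_sum_of_subset_of_nonneg (Finset.filter_subset _ _)
        intro _ _ _
        positivity
    _ = (S.winMid j).card * (1 / (S.Nm : ℝ)) := by rw [Finset.sum_const, nsmul_eq_mul]
    _ ≤ S.Nm * (1 / (S.Nm : ℝ)) :=
        mul_le_mul_of_nonneg_right (S.card_winMid j) (by positivity)
    _ = 1 := by field_simp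

/-- energy of a rich direction in the block -/
theorem sum_sq_le_of_I1 {j : ℕ} {A : Finset ι} (h1 : S.I1 j A) {k : Fin d} (hk : j < S.g k) :
    ∑ i ∈ A, (S.v i k) ^ 2 ≤ 1.5 * (S.lam k / 2 ^ j) := by
  have h := h1 (fun l => if l = k then 1 else 0) (by
    intro l hl
    by_cases hlk : l = k
    · rw [hlk] at hl; exact absurd hk hl
    · simp [hlk])
  simp only [ite_mul, one_mul, zero_mul, Finset.sum_ite_eq', Finset.mem_univ, if_true,
    ite_pow, one_pow, mul_ite, mul_one, ne_eq, OfNat.ofNat_ne_zero, not_false_eq_true,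
    zero_pow, mul_zero] at h
  have h3 := S.rho_le j
  have h4 : 0 ≤ S.lam k / 2 ^ j := div_nonneg (S.lam_nonneg k) (by positivity)
  have h5 := (abs_le.mp h).2
  nlinarith

theorem M_pos_of {j : ℕ} {k : Fin d} (hk : j < S.g k) : 0 < S.M j := by
  unfold M
  apply Finset.sum_pos
  · intro l hl
    have := S.lam_pos (Finset.mem_filter.mp hl).2
    positivity
  · exact ⟨k, by simp [hk]⟩

theorem cost_3 {j : ℕ} {A : Finset ι} (h1 : S.I1 j A) :
    ∑ p : Fin d × Fin d, ∑ i ∈ A, (S.c3 j p.1 p.2 * (S.v i p.1 * S.v i p.2)) ^ 2 ≤ 1 := by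
  classical
  by_cases hne : ∃ k, j < S.g k
  · obtain ⟨k0, hk0⟩ := hne
    have hM := S.M_pos_of hk0
    have hd := S.d_ge_one
    have e1 : ∑ p : Fin d × Fin d, ∑ i ∈ A, (S.c3 j p.1 p.2 * (S.v i p.1 * S.v i p.2)) ^ 2
        = ∑ i ∈ A, (1 / (2 * d * S.M j)) *
          (∑ k ∈ univ.filter (fun k : Fin d => j < S.g k),
            (S.v i k) ^ 2 / (S.lam k / 2 ^ j)) ^ 2 := by
      rw [Finset.sum_comm]
      apply Finset.sum_congr rfl
      intro i _
      rw [Fintype.sum_prod_type, sq, Finset.sum_mul_sum, Finset.mul_sum]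
      rw [Finset.sum_filter]
      apply Finset.sum_congr rfl
      intro k _
      split_ifs with hk
      · rw [Finset.sum_filter, Finset.mul_sum]
        apply Finset.sum_congr rfl
        intro l _
        split_ifs with hl
        · have h3 := S.lam_pos hk
          have h4 := S.lam_pos hl
          unfold c3
          rw [if_pos ⟨hk, hl⟩, mul_pow, div_pow, one_pow, Real.sq_sqrt (by positivity)]
          field_simp
        · unfold c3
          rw [if_neg (fun h => hl h.2)]
          simp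
      · apply Finset.sum_eq_zero
        intro l _
        unfold c3
        rw [if_neg (fun h => hk h.1)]
        simp
    rw [e1]
    have h2 : ∀ i, ∑ k ∈ univ.filter (fun k : Fin d => j < S.g k),
        (S.v i k) ^ 2 / (S.lam k / 2 ^ j) ≤ S.M j := by
      intro i
      have hle : ∀ k ∈ univ.filter (fun k : Fin d => j < S.g k),
          (S.v i k) ^ 2 / (S.lam k / 2 ^ j) ≤ (S.v i k) ^ 2 * S.M j := by
        intro k hk
        have hk' := (Finset.mem_filter.mp hk).2
        have h3 := S.lam_pos hk'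
        have h4 : 2 ^ j / S.lam k ≤ S.M j := by
          unfold M
          exact Finset.single_le_sum (f := fun k => 2 ^ j / S.lam k)
            (fun l _ => S.inv_nonneg' l j) hk
        have h5 : (S.v i k) ^ 2 / (S.lam k / 2 ^ j) = (S.v i k) ^ 2 * (2 ^ j / S.lam k) := by
          field_simp
        rw [h5]
        exact mul_le_mul_of_nonneg_left h4 (sq_nonneg _)
      calc _ ≤ ∑ k ∈ univ.filter (fun k : Fin d => j < S.g k), (S.v i k) ^ 2 * S.M j :=
            Finset.sum_le_sum hle
        _ = (∑ k ∈ univ.filter (fun k : Fin d => j < S.g k), (S.v i k) ^ 2) * S.M j := by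
            rw [Finset.sum_mul]
        _ ≤ 1 * S.M j := by
            apply mul_le_mul_of_nonneg_right _ hM.le
            exact (Finset.sum_le_sum_of_subset_of_nonneg (Finset.filter_subset _ _)
              (fun _ _ _ => sq_nonneg _)).trans (S.norm_le i)
        _ = S.M j := one_mul _
    have h3 : ∀ i, 0 ≤ ∑ k ∈ univ.filter (fun k : Fin d => j < S.g k),
        (S.v i k) ^ 2 / (S.lam k / 2 ^ j) := by
      intro i
      apply Finset.sum_nonneg
      intro k _
      have := S.lam_nonneg k
      positivity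
    calc ∑ i ∈ A, (1 / (2 * d * S.M j)) *
          (∑ k ∈ univ.filter (fun k : Fin d => j < S.g k),
            (S.v i k) ^ 2 / (S.lam k / 2 ^ j)) ^ 2
        ≤ ∑ i ∈ A, (1 / (2 * d * S.M j)) * (S.M j *
          ∑ k ∈ univ.filter (fun k : Fin d => j < S.g k),
            (S.v i k) ^ 2 / (S.lam k / 2 ^ j)) := by
          apply Finset.sum_le_sum
          intro i _
          apply mul_le_mul_of_nonneg_left _ (by positivity)
          rw [sq]
          exact mul_le_mul_of_nonneg_right (h2 i) (h3 i)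
      _ = (1 / (2 * d)) * ∑ k ∈ univ.filter (fun k : Fin d => j < S.g k),
            (∑ i ∈ A, (S.v i k) ^ 2) / (S.lam k / 2 ^ j) := by
          simp only [Finset.sum_div]
          rw [Finset.sum_comm, Finset.mul_sum]
          apply Finset.sum_congr rfl
          intro i _
          rw [← mul_assoc]
          congr 1
          field_simp
      _ ≤ (1 / (2 * d)) * ∑ k ∈ univ.filter (fun k : Fin d => j < S.g k), (1.5 : ℝ) := by
          apply mul_le_mul_of_nonneg_left _ (by positivity)
          apply Finset.sum_le_sum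
          intro k hk
          have hk' := (Finset.mem_filter.mp hk).2
          have h5 := S.lam_pos hk'
          rw [div_le_iff₀ (by positivity)]
          exact S.sum_sq_le_of_I1 h1 hk'
      _ ≤ (1 / (2 * d)) * ∑ _k : Fin d, (1.5 : ℝ) := by
          apply mul_le_mul_of_nonneg_left _ (by positivity)
          apply Finset.sum_le_sum_of_subset_of_nonneg (Finset.filter_subset _ _)
          intro _ _ _
          norm_num
      _ = 0.75 := by
          rw [Finset.sum_const, Finset.card_univ, Fintype.card_fin, nsmul_eq_mul]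
          field_simp
          norm_num
      _ ≤ 1 := by norm_num
  · push Not at hne
    have : ∑ p : Fin d × Fin d, ∑ i ∈ A, (S.c3 j p.1 p.2 * (S.v i p.1 * S.v i p.2)) ^ 2 = 0 := by
      apply Finset.sum_eq_zero
      intro p _
      apply Finset.sum_eq_zero
      intro i _
      unfold c3
      rw [if_neg (fun h => absurd h.1 (not_lt.mpr (hne p.1)))]
      simp
    rw [this]
    norm_num

end Data

end Vale.Agent.H22.ST
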