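import Vale.Agent.H22.ST.L2

/-!
# Cost bounds for the rounding tests
-/

set_option linter.unusedSectionVars false

noncomputable section

open Finset

namespace Vale.Agent.H22.ST

/-- extraction of a partial sum from a weighted sum of squares -/
theorem extract {κ : Type} [Fintype κ] (s : Finset κ) (c t : κ → ℝ) {W Γ : ℝ} (hW : 0 ≤ W)
    (hc : ∀ k ∈ s, 1 ≤ W * (c k) ^ 2) (h : ∑ k, (c k * t k) ^ 2 ≤ Γ) :
    ∑ k ∈ s, (t k) ^ 2 ≤ W * Γ := by
  calc ∑ k ∈ s, (t k) ^ 2 ≤ ∑ k ∈ s, W * (c k * t k) ^ 2 := by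
        apply Finset.sum_le_sum
        intro k hk
        have h1 := hc k hk
        have h2 := sq_nonneg (t k)
        calc (t k) ^ 2 = 1 * (t k) ^ 2 := by ring
          _ ≤ (W * (c k) ^ 2) * (t k) ^ 2 := mul_le_mul_of_nonneg_right h1 h2
          _ = W * (c k * t k) ^ 2 := by ring
    _ = W * ∑ k ∈ s, (c k * t k) ^ 2 := by rw [Finset.mul_sum]
    _ ≤ W * ∑ k, (c k * t k) ^ 2 := by
        apply mul_le_mul_of_nonneg_left _ hW
        exact Finset.sum_le_sum_of_subset_of_nonneg (Finset.subset_univ _)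
          (fun _ _ _ => sq_nonneg _)
    _ ≤ W * Γ := mul_le_mul_of_nonneg_left h hW

/-- harmonic sum bound -/
theorem sum_rich_le (d p : ℕ) (hd : 1 ≤ d) :
    ∑ k ∈ univ.filter (fun k : Fin d => p ≤ (k : ℕ)), 1 / ((k : ℝ) - p + 1)
      ≤ 1 + Real.log d := by
  have h1 : ∑ k ∈ univ.filter (fun k : Fin d => p ≤ (k : ℕ)), 1 / ((k : ℝ) - p + 1)
      = ∑ k ∈ (Finset.range d).filter (fun k => p ≤ k), 1 / ((k : ℝ) - p + 1) := by
    rw [Finset.sum_filter, Finset.sum_filter, Finset.sum_range]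
  rw [h1]
  have h2 : ∑ k ∈ (Finset.range d).filter (fun k => p ≤ k), 1 / ((k : ℝ) - p + 1)
      ≤ ∑ t ∈ Finset.range d, 1 / ((t : ℝ) + 1) := by
    have h3 : ∑ k ∈ (Finset.range d).filter (fun k => p ≤ k), 1 / ((k : ℝ) - p + 1)
        = ∑ t ∈ ((Finset.range d).filter (fun k => p ≤ k)).image (fun k => k - p),
          1 / ((t : ℝ) + 1) := by
      rw [Finset.sum_image]
      · apply Finset.sum_congr rfl
        intro k hk
        rw [Finset.mem_filter] at hk
        rw [Nat.cast_sub hk.2]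
      · intro a ha b hb hab
        rw [Finset.coe_filter, Set.mem_setOf_eq] at ha hb
        simp only at hab
        omega
    rw [h3]
    apply Finset.sum_le_sum_of_subset_of_nonneg
    · intro t ht
      rw [Finset.mem_image] at ht
      obtain ⟨k, hk, rfl⟩ := ht
      rw [Finset.mem_filter, Finset.mem_range] at hk
      rw [Finset.mem_range]
      omega
    · intro t _ _
      positivity
  refine h2.trans ?_
  have h4 := harmonic_le_one_add_log d
  have h5 : ((harmonic d : ℚ) : ℝ) = ∑ t ∈ Finset.range d, 1 / ((t : ℝ) + 1) := by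
    unfold harmonic
    push_cast
    apply Finset.sum_congr rfl
    intro t _
    rw [one_div]
  rw [← h5]
  exact h4

/-- geometric sum over ages -/
theorem sum_sig_le (J : ℕ) {σ : ℝ} (h0 : 0 ≤ σ) (h1 : σ < 1) :
    ∑ x ∈ Finset.range (J + 1), σ ^ (J - x) ≤ 1 / (1 - σ) := by
  have h2 := Finset.sum_range_reflect (fun m => σ ^ m) (J + 1)
  have h3 : ∑ x ∈ Finset.range (J + 1), σ ^ (J - x) = ∑ m ∈ Finset.range (J + 1), σ ^ m := by
    rw [← h2]
    apply Finset.sum_congr rfl
    intro x _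
    congr 1
  rw [h3]
  rw [geom_sum_eq (ne_of_lt h1)]
  have h4 : (σ ^ (J + 1) - 1) / (σ - 1) = (1 - σ ^ (J + 1)) / (1 - σ) := by
    rw [← neg_div_neg_eq]; congr 1 <;> ring
  rw [h4]
  have h5 : 0 ≤ σ ^ (J + 1) := by positivity
  apply div_le_div_of_nonneg_right _ (by linarith)
  linarith

namespace Data

variable {ι : Type} [Fintype ι] [DecidableEq ι] {d : ℕ} (S : Data ι d)

/-- group sums -/
theorem group_sum (p : ℕ → Prop) [DecidablePred p] (X : Finset ℕ)
    (hX : ∀ k : Fin d, p (S.g k) → S.g k ∈ X) (hX2 : ∀ x ∈ X, p x) (ψ Z : ℕ → ℝ)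
    (hψ : ∀ x ∈ X, 0 ≤ ψ x)
    (e : Fin d → ℝ) (he : ∀ x ∈ X, ∑ k ∈ univ.filter (fun k : Fin d => S.g k = x), e k
      ≤ S.dg x * Z x) :
    ∑ k ∈ univ.filter (fun k : Fin d => p (S.g k)), ψ (S.g k) * e k
      ≤ ∑ x ∈ X, ψ x * (S.dg x * Z x) := by
  rw [← Finset.sum_fiberwise_of_maps_to (s := univ.filter (fun k : Fin d => p (S.g k)))
    (t := X) (g := S.g) (fun k hk => hX k (Finset.mem_filter.mp hk).2)]
  apply Finset.sum_le_sum
  intro x hx
  have h1 : (univ.filter (fun k : Fin d => p (S.g k))).filter (fun k => S.g k = x)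
      = univ.filter (fun k : Fin d => S.g k = x) := by
    ext k
    simp only [Finset.mem_filter, Finset.mem_univ, true_and]
    constructor
    · intro h; exact h.2
    · intro h; exact ⟨by rw [h]; exact hX2 x hx, h⟩
  rw [h1]
  calc ∑ k ∈ univ.filter (fun k : Fin d => S.g k = x), ψ (S.g k) * e k
      = ψ x * ∑ k ∈ univ.filter (fun k : Fin d => S.g k = x), e k := by
        rw [Finset.mul_sum]
        apply Finset.sum_congr rfl
        intro k hk
        rw [(Finset.mem_filter.mp hk).2]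
    _ ≤ ψ x * (S.dg x * Z x) := mul_le_mul_of_nonneg_left (he x hx) (hψ x hx)

end Data

end Vale.Agent.H22.ST
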