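import Vale.Agent.H22.ST.L4

/-!
# The rounding of a block: the estimates `Good`
-/

set_option linter.unusedSectionVars false

noncomputable section

open Finset

namespace Vale.Agent.H22.ST

namespace Data

variable {ι : Type} [Fintype ι] [DecidableEq ι] {d : ℕ} (S : Data ι d)

theorem Good.neg {j : ℕ} {A : Finset ι} {δ : ι → ℝ} (h : S.Good j A δ) :
    S.Good j A (fun i => - δ i) := by
  have e : ∀ u : ι → ℝ, (∑ i ∈ A, - δ i * u i) ^ 2 = (∑ i ∈ A, δ i * u i) ^ 2 := by
    intro u
    have : ∑ i ∈ A, - δ i * u i = - ∑ i ∈ A, δ i * u i := by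
      rw [← Finset.sum_neg_distrib]
      exact Finset.sum_congr rfl fun i _ => by ring
    rw [this, neg_sq]
  constructor
  · intro b hb hp
    have := h.r1 b hb hp
    simp only [e (fun i => S.v i _)]
    exact this
  · intro x hx hx2
    have := h.r2 x hx hx2
    simp only [e (fun i => S.v i _)]
    exact this
  · intro x hx
    have := h.r3 x hx
    simp only [e (fun i => S.f j _ i)]
    exact this
  · intro x hx hx2
    have := h.r4 x hx hx2
    simp only [e (fun i => (S.f j _ i) ^ 2)]
    exact this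
  · intro x hx
    have := h.r5 x hx
    simp only [e (fun i => (S.f j _ i) ^ 2)]
    exact this
  · have := h.r6
    simp only [e (fun i => S.v i _ * S.v i _)]
    exact this

theorem exists_round (j : ℕ) (A : Finset ι) (h1 : S.I1 j A) (h2 : S.I2 j A) (x : ι → ℝ)
    (hx : ∀ i ∈ A, 0 ≤ x i ∧ x i ≤ 1) :
    ∃ ξ : ι → ℝ, (∀ i ∈ A, ξ i = 0 ∨ ξ i = 1) ∧ S.Good j A (fun i => ξ i - x i) := by
  classical
  obtain ⟨ξ, hξ, hr⟩ := rounding S.v A (fun i _ => S.norm_le i) x hx
    (M1 := Fin d) (M2 := (Fin d ⊕ Fin d) ⊕ (Fin d × Fin d))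
    (fun k l => if l = k then S.cw j k else 0)
    (fun m i => match m with
      | Sum.inl (Sum.inl k) => S.c1 j k * S.f j k i
      | Sum.inl (Sum.inr k) => S.c2 j k * (S.f j k i) ^ 2
      | Sum.inr p => S.c3 j p.1 p.2 * (S.v i p.1 * S.v i p.2))
  refine ⟨ξ, hξ, ?_⟩
  rw [Fintype.sum_sum_type, Fintype.sum_sum_type, Fintype.sum_sum_type, Fintype.sum_sum_type]
    at hr
  simp only at hr
  set δ : ι → ℝ := fun i => ξ i - x i with hδ
  -- rewrite the tests
  have t0 : ∀ k, ∑ i ∈ A, (ξ i - x i) * ∑ l, (if l = k then S.cw j k else 0) * S.v i l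
      = S.cw j k * ∑ i ∈ A, δ i * S.v i k := by
    intro k
    rw [Finset.mul_sum]
    apply Finset.sum_congr rfl
    intro i _
    simp only [ite_mul, zero_mul, Finset.sum_ite_eq', Finset.mem_univ, if_true, hδ]
    ring
  have t1 : ∀ k, ∑ i ∈ A, (ξ i - x i) * (S.c1 j k * S.f j k i)
      = S.c1 j k * ∑ i ∈ A, δ i * S.f j k i := by
    intro k
    rw [Finset.mul_sum]
    exact Finset.sum_congr rfl fun i _ => by simp only [hδ]; ring
  have t2 : ∀ k, ∑ i ∈ A, (ξ i - x i) * (S.c2 j k * (S.f j k i) ^ 2)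
      = S.c2 j k * ∑ i ∈ A, δ i * (S.f j k i) ^ 2 := by
    intro k
    rw [Finset.mul_sum]
    exact Finset.sum_congr rfl fun i _ => by simp only [hδ]; ring
  have t3 : ∀ p : Fin d × Fin d, ∑ i ∈ A, (ξ i - x i) * (S.c3 j p.1 p.2 * (S.v i p.1 * S.v i p.2))
      = S.c3 j p.1 p.2 * ∑ i ∈ A, δ i * (S.v i p.1 * S.v i p.2) := by
    intro p
    rw [Finset.mul_sum]
    exact Finset.sum_congr rfl fun i _ => by simp only [hδ]; ring
  simp only [t0, t1, t2, t3] at hr
  have cw0 : ∑ k : Fin d, ∑ l : Fin d, (if l = k then S.cw j k else 0) ^ 2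
      = ∑ k, (S.cw j k) ^ 2 := by
    apply Finset.sum_congr rfl
    intro k _
    simp [ite_pow]
  rw [cw0] at hr
  have hcw := S.cost_w j
  have hc1 := S.cost_1 h2
  have hc2 := S.cost_2 h2
  have hc3 := S.cost_3 h1
  have hΓ := S.Γ_ge
  have hΓ0 := S.Γ_nonneg
  have hN := S.Nm_pos
  have p0 : 0 ≤ ∑ k, (S.cw j k * ∑ i ∈ A, δ i * S.v i k) ^ 2 :=
    Finset.sum_nonneg fun _ _ => sq_nonneg _
  have p1 : 0 ≤ ∑ k, (S.c1 j k * ∑ i ∈ A, δ i * S.f j k i) ^ 2 :=
    Finset.sum_nonneg fun _ _ => sq_nonneg _
  have p2 : 0 ≤ ∑ k, (S.c2 j k * ∑ i ∈ A, δ i * (S.f j k i) ^ 2) ^ 2 :=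
    Finset.sum_nonneg fun _ _ => sq_nonneg _
  have p3 : 0 ≤ ∑ p : Fin d × Fin d,
      (S.c3 j p.1 p.2 * ∑ i ∈ A, δ i * (S.v i p.1 * S.v i p.2)) ^ 2 :=
    Finset.sum_nonneg fun _ _ => sq_nonneg _
  have q0 : ∑ k, (S.cw j k * ∑ i ∈ A, δ i * S.v i k) ^ 2 ≤ S.Γ := by linarith
  have q1 : ∑ k, (S.c1 j k * ∑ i ∈ A, δ i * S.f j k i) ^ 2 ≤ S.Γ := by linarith
  have q2 : ∑ k, (S.c2 j k * ∑ i ∈ A, δ i * (S.f j k i) ^ 2) ^ 2 ≤ S.Γ := by linarith
  have q3 : ∑ p : Fin d × Fin d,
      (S.c3 j p.1 p.2 * ∑ i ∈ A, δ i * (S.v i p.1 * S.v i p.2)) ^ 2 ≤ S.Γ := by linarith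
  constructor
  · -- r1
    intro b hb hpb
    rcases Nat.eq_or_lt_of_le hpb with h0 | h0
    · have : (univ.filter (fun k : Fin d => j + S.n < S.g k ∧ (k : ℕ) < b)) = ∅ := by
        apply Finset.filter_eq_empty_iff.mpr
        intro k _ hk
        have := S.rich_pj hk.1
        omega
      rw [this, Finset.sum_empty, ← h0]
      simp
    · have hW : (0 : ℝ) ≤ (b : ℝ) - S.pj j := by
        have : ((S.pj j : ℕ) : ℝ) ≤ (b : ℝ) := by exact_mod_cast hpb
        linarith
      have := extract (univ.filter (fun k : Fin d => j + S.n < S.g k ∧ (k : ℕ) < b))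
        (S.cw j) (fun k => ∑ i ∈ A, δ i * S.v i k) hW (by
          intro k hk
          have hk' := (Finset.mem_filter.mp hk).2
          have h5 := S.rich_pj hk'.1
          have h6 : (0 : ℝ) < (k : ℝ) - S.pj j + 1 := by
            have : ((S.pj j : ℕ) : ℝ) ≤ ((k : ℕ) : ℝ) := by exact_mod_cast h5
            linarith
          have h7 : (k : ℝ) + 1 ≤ b := by exact_mod_cast hk'.2
          unfold cw
          rw [if_pos hk'.1, div_pow, one_pow, Real.sq_sqrt h6.le, mul_one_div, le_div_iff₀ h6]
          linarith) q0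
      linarith
  · -- r2
    intro y hy hy2
    have := extract (univ.filter (fun k : Fin d => S.g k = y))
        (S.cw j) (fun k => ∑ i ∈ A, δ i * S.v i k) (W := S.dg y * S.Nm) (Γ := S.Γ)
        (mul_nonneg (S.dg_nonneg y) hN.le) (by
          intro k hk
          have hk' := (Finset.mem_filter.mp hk).2
          have hdg := S.dg_ge_one k
          unfold cw
          rw [if_neg (by omega), if_pos (by omega), div_pow, one_pow, hk',
            Real.sq_sqrt (mul_nonneg (S.dg_nonneg y) hN.le)]
          rw [hk'] at hdg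
          rw [mul_one_div_cancel (by positivity)]) q0
    linarith
  · -- r3
    intro y hy
    have hY := S.Yb_pos (j - y)
    have hs := sig_pos
    have hYo : S.Yb (j - y) = (S.K + 1) * 0.8 ^ (j - (y + S.a2)) := by
      rw [S.Yb_old (by omega)]
      congr 2
      omega
    have := extract (univ.filter (fun k : Fin d => S.g k = y))
        (S.c1 j) (fun k => ∑ i ∈ A, δ i * S.f j k i)
        (W := S.dg y * S.Yb (j - y) / sig ^ (j - (y + S.a2))) (Γ := S.Γ)
        (div_nonneg (mul_nonneg (S.dg_nonneg y) hY.le) (by positivity)) (by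
          intro k hk
          have hk' := (Finset.mem_filter.mp hk).2
          have hdg := S.dg_ge_one k
          rw [hk'] at hdg
          unfold c1
          rw [if_pos (by omega), hk', Real.sq_sqrt (by positivity)]
          apply le_of_eq
          field_simp) q1
    have e1 : S.dg y * S.Yb (j - y) / sig ^ (j - (y + S.a2)) * S.Γ
        = S.Γ * S.dg y * (S.K + 1) * (0.94 ^ 2 : ℝ) ^ (j - (y + S.a2)) := by
      rw [hYo]
      have : (0.8 : ℝ) ^ (j - (y + S.a2)) / sig ^ (j - (y + S.a2))
          = (0.94 ^ 2) ^ (j - (y + S.a2)) := by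
        rw [← div_pow]
        congr 1
        unfold sig
        norm_num
      rw [← this]
      ring
    linarith
  · -- r4
    intro y hy hy2
    have hY := S.Yb_pos (j - y)
    have := extract (univ.filter (fun k : Fin d => S.g k = y))
        (S.c2 j) (fun k => ∑ i ∈ A, δ i * (S.f j k i) ^ 2)
        (W := S.dg y * S.Nm * S.Yb (j - y)) (Γ := S.Γ)
        (mul_nonneg (mul_nonneg (S.dg_nonneg y) hN.le) hY.le) (by
          intro k hk
          have hk' := (Finset.mem_filter.mp hk).2
          have hdg := S.dg_ge_one k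
          rw [hk'] at hdg
          unfold c2
          rw [if_neg (by omega), if_pos (by omega), hk', div_pow, one_pow,
            Real.sq_sqrt (by positivity)]
          rw [mul_one_div_cancel (by positivity)]) q2
    linarith
  · -- r5
    intro y hy
    have hY := S.Yb_pos (j - y)
    have hs := sig_pos
    set m := j - (y + S.a2) with hm
    have hYo : S.Yb (j - y) = (S.K + 1) * 0.8 ^ m := by
      rw [S.Yb_old (by omega)]
      congr 2
      omega
    have := extract (univ.filter (fun k : Fin d => S.g k = y))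
        (S.c2 j) (fun k => ∑ i ∈ A, δ i * (S.f j k i) ^ 2)
        (W := S.dg y * S.Yb (j - y) * (0.85 ^ 2) ^ m / sig ^ m) (Γ := S.Γ)
        (div_nonneg (mul_nonneg (mul_nonneg (S.dg_nonneg y) hY.le) (by positivity))
          (by positivity)) (by
          intro k hk
          have hk' := (Finset.mem_filter.mp hk).2
          have hdg := S.dg_ge_one k
          rw [hk'] at hdg
          have ht : S.thr j k = (0.85 ^ 2) ^ m := by
            unfold thr
            rw [hk']
          unfold c2
          rw [if_pos (by omega), hk', ht, ← hm, Real.sq_sqrt (by positivity)]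
          apply le_of_eq
          field_simp) q2
    have e1 : S.dg y * S.Yb (j - y) * (0.85 ^ 2) ^ m / sig ^ m * S.Γ
        = S.Γ * S.dg y * (S.K + 1) * ((0.94 ^ 2 * 0.85 ^ 2 : ℝ) ^ m) := by
      rw [hYo]
      have : (0.8 : ℝ) ^ m / sig ^ m = (0.94 ^ 2) ^ m := by
        rw [← div_pow]
        congr 1
        unfold sig
        norm_num
      rw [mul_pow (0.94 ^ 2 : ℝ) (0.85 ^ 2) m, ← this]
      ring
    have e2 : S.Γ * S.dg y * (S.K + 1) * ((0.94 ^ 2 * 0.85 ^ 2 : ℝ) ^ m)
        ≤ S.Γ * S.dg y * (S.K + 1) * (0.64 : ℝ) ^ m := by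
      apply mul_le_mul_of_nonneg_left
      · exact pow_le_pow_left₀ (by norm_num) (by norm_num) m
      · have h1 := S.dg_nonneg y
        have h2 := S.K_nonneg
        positivity
    linarith
  · -- r6
    by_cases hne : ∃ k, j < S.g k
    · obtain ⟨k0, hk0⟩ := hne
      have hM := S.M_pos_of hk0
      have hd := S.d_ge_one
      have h5 := extract (univ.filter (fun p : Fin d × Fin d => j < S.g p.1 ∧ j < S.g p.2))
        (fun p : Fin d × Fin d => S.c3 j p.1 p.2 *
          Real.sqrt ((S.lam p.1 / 2 ^ j) * (S.lam p.2 / 2 ^ j)))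
        (fun p => (∑ i ∈ A, δ i * (S.v i p.1 * S.v i p.2)) /
          Real.sqrt ((S.lam p.1 / 2 ^ j) * (S.lam p.2 / 2 ^ j)))
        (W := 2 * d * S.M j) (Γ := S.Γ) (by positivity) (by
          intro p hp
          have hp' := (Finset.mem_filter.mp hp).2
          have h3 := S.lam_pos hp'.1
          have h4 := S.lam_pos hp'.2
          unfold c3
          rw [if_pos hp', mul_pow, div_pow, one_pow, Real.sq_sqrt (by positivity),
            Real.sq_sqrt (by positivity)]
          apply le_of_eq
          field_simp) (by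
          refine le_trans (Finset.sum_le_sum ?_) q3
          intro p _
          by_cases hp' : j < S.g p.1 ∧ j < S.g p.2
          · have h3 := S.lam_pos hp'.1
            have h4 := S.lam_pos hp'.2
            have h5 : 0 < Real.sqrt ((S.lam p.1 / 2 ^ j) * (S.lam p.2 / 2 ^ j)) :=
              Real.sqrt_pos.mpr (by positivity)
            apply le_of_eq
            congr 1
            field_simp
          · have : S.c3 j p.1 p.2 = 0 := by unfold c3; rw [if_neg hp']
            rw [this]
            simp)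
      have h6 : ∑ k ∈ univ.filter (fun k : Fin d => j < S.g k),
          ∑ l ∈ univ.filter (fun l : Fin d => j < S.g l),
          (∑ i ∈ A, δ i * (S.v i k * S.v i l)) ^ 2 / ((S.lam k / 2 ^ j) * (S.lam l / 2 ^ j))
          = ∑ p ∈ univ.filter (fun p : Fin d × Fin d => j < S.g p.1 ∧ j < S.g p.2),
          ((∑ i ∈ A, δ i * (S.v i p.1 * S.v i p.2)) /
          Real.sqrt ((S.lam p.1 / 2 ^ j) * (S.lam p.2 / 2 ^ j))) ^ 2 := by
        have h7 : univ.filter (fun p : Fin d × Fin d => j < S.g p.1 ∧ j < S.g p.2)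
            = (univ.filter (fun k : Fin d => j < S.g k)) ×ˢ
              (univ.filter (fun l : Fin d => j < S.g l)) := by
          ext p
          simp
        rw [h7, Finset.sum_product]
        apply Finset.sum_congr rfl
        intro k hk
        apply Finset.sum_congr rfl
        intro l hl
        have h3 := S.lam_pos (Finset.mem_filter.mp hk).2
        have h4 := S.lam_pos (Finset.mem_filter.mp hl).2
        rw [div_pow, Real.sq_sqrt (by positivity)]
      rw [h6]
      linarith
    · push Not at hne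
      have : (univ.filter (fun k : Fin d => j < S.g k)) = ∅ := by
        apply Finset.filter_eq_empty_iff.mpr
        intro k _ hk
        exact absurd hk (not_lt.mpr (hne k))
      rw [this, Finset.sum_empty]
      have hM := S.M_nonneg j
      have hd := S.d_ge_one
      positivity

end Data

end Vale.Agent.H22.ST
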