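import Vale.Agent.H22.ST.L3

/-!
# L5: (I1) for a child
-/

set_option linter.unusedSectionVars false

noncomputable section

open Finset

namespace Vale.Agent.H22.ST

namespace Data

variable {ι : Type} [Fintype ι] [DecidableEq ι] {d : ℕ} (S : Data ι d)

/-- sums over a child -/
theorem sum_child (A A' : Finset ι) (hA : A' ⊆ A) (β δ : ι → ℝ)
    (hind : ∀ i ∈ A, (if i ∈ A' then (1 : ℝ) else 0) = 1 / 2 + β i + δ i) (F : ι → ℝ) :
    ∑ i ∈ A', F i = (1 / 2) * ∑ i ∈ A, F i + ∑ i ∈ A, β i * F i + ∑ i ∈ A, δ i * F i := by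
  have e1 : ∑ i ∈ A', F i = ∑ i ∈ A, (if i ∈ A' then (1 : ℝ) else 0) * F i := by
    simp only [ite_mul, one_mul, zero_mul]
    rw [← Finset.sum_filter]
    congr 1
    ext i
    simp only [Finset.mem_filter]
    exact ⟨fun h => ⟨hA h, h⟩, fun h => h.2⟩
  rw [e1, Finset.mul_sum, ← Finset.sum_add_distrib, ← Finset.sum_add_distrib]
  refine Finset.sum_congr rfl fun i hi => ?_
  rw [hind i hi]
  ring

/-- L5: (I1) for a child -/
theorem I1_child (j : ℕ) (A A' : Finset ι) (hA : A' ⊆ A) (h1 : S.I1 j A) (β δ : ι → ℝ)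
    (hβ : ∀ i, |β i| ≤ S.B j) (hδ : S.Good j A δ)
    (hind : ∀ i ∈ A, (if i ∈ A' then (1 : ℝ) else 0) = 1 / 2 + β i + δ i) :
    S.I1 (j + 1) A' := by
  intro y hy
  have hy' : ∀ k, ¬ j < S.g k → y k = 0 := fun k hk => hy k (by omega)
  set T : Finset (Fin d) := univ.filter (fun k => j < S.g k) with hT
  set q : Fin d → ℝ := fun k => S.lam k / 2 ^ j with hq
  have hTmem : ∀ k, k ∈ T ↔ j < S.g k := fun k => by simp [hT]
  have hqpos : ∀ k ∈ T, 0 < q k := by
    intro k hk
    have := S.lam_pos (k := k) (j := j) ((hTmem k).1 hk)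
    simp only [hq]
    positivity
  set X : ι → ℝ := fun i => ∑ k, y k * S.v i k with hX
  set Q : ℝ := ∑ k, q k * (y k) ^ 2 with hQ
  have hQ0 : 0 ≤ Q := Finset.sum_nonneg fun k _ => by
    have := S.lam_nonneg k
    simp only [hq]
    positivity
  have hI := h1 y hy'
  change |∑ i ∈ A, X i ^ 2 - Q| ≤ S.rho j * Q at hI
  have hrho := S.rho_le j
  have hsum := sum_child A A' hA β δ hind (fun i => X i ^ 2)
  have hAX0 : 0 ≤ ∑ i ∈ A, X i ^ 2 := Finset.sum_nonneg fun i _ => sq_nonneg _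
  -- the bias term
  have hb : |∑ i ∈ A, β i * X i ^ 2| ≤ S.B j * (3 / 2 * Q) := by
    have hB0 := S.B_nonneg j
    calc |∑ i ∈ A, β i * X i ^ 2| ≤ ∑ i ∈ A, |β i * X i ^ 2| := Finset.abs_sum_le_sum_abs _ _
      _ ≤ ∑ i ∈ A, S.B j * X i ^ 2 := by
          refine Finset.sum_le_sum fun i _ => ?_
          rw [abs_mul, abs_of_nonneg (sq_nonneg (X i))]
          exact mul_le_mul_of_nonneg_right (hβ i) (sq_nonneg _)
      _ = S.B j * ∑ i ∈ A, X i ^ 2 := by rw [Finset.mul_sum]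
      _ ≤ S.B j * (3 / 2 * Q) := by
          refine mul_le_mul_of_nonneg_left ?_ hB0
          have h2 := (abs_le.1 hI).2
          have h3 : S.rho j * Q ≤ 1 / 2 * Q := mul_le_mul_of_nonneg_right hrho hQ0
          linarith
  -- the rounding term
  have hd : |∑ i ∈ A, δ i * X i ^ 2| ≤ Q * Real.sqrt (2 * S.Γ * d * S.M j) := by
    have e1 : ∑ i ∈ A, δ i * X i ^ 2
        = ∑ p ∈ T ×ˢ T, (y p.1 * y p.2) * ∑ i ∈ A, δ i * (S.v i p.1 * S.v i p.2) := by
      rw [Finset.sum_product]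
      have e2 : ∀ i, X i ^ 2 = ∑ k ∈ T, ∑ l ∈ T, (y k * y l) * (S.v i k * S.v i l) := by
        intro i
        have e3 : X i = ∑ k ∈ T, y k * S.v i k := by
          simp only [hX]
          symm
          refine Finset.sum_subset (Finset.subset_univ _) fun k _ hk => ?_
          rw [hTmem] at hk
          rw [hy' k hk, zero_mul]
        rw [e3, sq, Finset.sum_mul_sum]
        exact Finset.sum_congr rfl fun k _ => Finset.sum_congr rfl fun l _ => by ring
      simp only [e2, Finset.mul_sum]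
      rw [Finset.sum_comm]
      refine Finset.sum_congr rfl fun k _ => ?_
      rw [Finset.sum_comm]
      refine Finset.sum_congr rfl fun l _ => Finset.sum_congr rfl fun i _ => ?_
      ring
    have h2 := wcs (T ×ˢ T) (fun p : Fin d × Fin d => q p.1 * q p.2)
      (fun p => y p.1 * y p.2) (fun p => ∑ i ∈ A, δ i * (S.v i p.1 * S.v i p.2)) (fun p hp => by
        rw [Finset.mem_product] at hp
        exact mul_pos (hqpos _ hp.1) (hqpos _ hp.2))
    have hQT : Q = ∑ k ∈ T, q k * (y k) ^ 2 := by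
      symm
      refine Finset.sum_subset (Finset.subset_univ _) fun k _ hk => ?_
      rw [hTmem] at hk
      rw [hy' k hk]
      ring
    have e4 : ∑ p ∈ T ×ˢ T, q p.1 * q p.2 * (y p.1 * y p.2) ^ 2 = Q ^ 2 := by
      rw [hQT, sq, Finset.sum_mul_sum, Finset.sum_product]
      exact Finset.sum_congr rfl fun k _ => Finset.sum_congr rfl fun l _ => by ring
    have h3 : ∑ p ∈ T ×ˢ T, (∑ i ∈ A, δ i * (S.v i p.1 * S.v i p.2)) ^ 2 / (q p.1 * q p.2)
        ≤ 2 * S.Γ * d * S.M j := by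
      rw [Finset.sum_product]
      exact hδ.r6
    rw [e1]
    refine abs_le_of_sq_le_sq ?_ (by positivity)
    rw [mul_pow, Real.sq_sqrt (le_trans (Finset.sum_nonneg fun p hp => by
      rw [Finset.mem_product] at hp
      have := hqpos _ hp.1
      have := hqpos _ hp.2
      positivity) h3)]
    rw [e4] at h2
    exact h2.trans (mul_le_mul_of_nonneg_left h3 (sq_nonneg _))
  -- conclusion
  have e5 : ∑ k, S.lam k / 2 ^ (j + 1) * (y k) ^ 2 = Q / 2 := by
    rw [hQ, Finset.sum_div]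
    refine Finset.sum_congr rfl fun k _ => ?_
    simp only [hq]
    rw [pow_succ]
    field_simp
  rw [e5]
  change |∑ i ∈ A', X i ^ 2 - Q / 2| ≤ S.rho (j + 1) * (Q / 2)
  rw [hsum]
  have e6 : S.rho (j + 1) = S.rho j + (6 * S.R * S.M j + 2 * Real.sqrt (2 * S.Γ * d * S.M j)) := by
    unfold rho
    rw [Finset.sum_range_succ]
  have e7 : S.B j = 2 * S.R * S.M j := rfl
  rw [e6]
  rw [e7] at hb
  rw [abs_le] at hI hb hd ⊢
  constructor <;> nlinarith [hI.1, hI.2, hb.1, hb.2, hd.1, hd.2]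

end Data

end Vale.Agent.H22.ST
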