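import Vale.Agent.H22.ST.L2

/-!
# P262, L6: (I2) for a child
-/

set_option linter.unusedSectionVars false

noncomputable section

open Finset

namespace Vale.Agent.H22.ST

namespace Data

variable {ι : Type} [Fintype ι] [DecidableEq ι] {d : ℕ} (S : Data ι d)

theorem sum_child_eq {A A' : Finset ι} (hA : A' ⊆ A) (β δ : ι → ℝ)
    (hind : ∀ i ∈ A, (if i ∈ A' then (1 : ℝ) else 0) = 1 / 2 + β i + δ i) (F : ι → ℝ) :
    ∑ i ∈ A', F i = 1 / 2 * ∑ i ∈ A, F i + ∑ i ∈ A, β i * F i + ∑ i ∈ A, δ i * F i := by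
  have h1 : ∑ i ∈ A', F i = ∑ i ∈ A, (if i ∈ A' then (1 : ℝ) else 0) * F i := by
    rw [← Finset.sum_filter_add_sum_filter_not A (fun i => i ∈ A')]
    have e1 : A.filter (fun i => i ∈ A') = A' := by
      ext i
      simp only [Finset.mem_filter]
      exact ⟨fun h => h.2, fun h => ⟨hA h, h⟩⟩
    rw [e1]
    have e2 : ∑ i ∈ A.filter (fun i => ¬ i ∈ A'), (if i ∈ A' then (1 : ℝ) else 0) * F i = 0 := by
      apply Finset.sum_eq_zero
      intro i hi
      rw [Finset.mem_filter] at hi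
      rw [if_neg hi.2, zero_mul]
    rw [e2, add_zero]
    apply Finset.sum_congr rfl
    intro i hi
    rw [if_pos hi, one_mul]
  rw [h1, Finset.mul_sum, ← Finset.sum_add_distrib, ← Finset.sum_add_distrib]
  apply Finset.sum_congr rfl
  intro i hi
  rw [hind i hi]
  ring

theorem En_child_le (j : ℕ) (A A' : Finset ι) (hA : A' ⊆ A)
    (β δ : ι → ℝ) (hβ : ∀ i, |β i| ≤ S.B j)
    (hind : ∀ i ∈ A, (if i ∈ A' then (1 : ℝ) else 0) = 1 / 2 + β i + δ i) (k : Fin d) :
    S.En (j + 1) k A' ≤ 0.6 * S.En j k A + |∑ i ∈ A, δ i * (S.f j k i) ^ 2| := by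
  have h1 : S.En (j + 1) k A' ≤ ∑ i ∈ A', (S.f j k i) ^ 2 :=
    Finset.sum_le_sum fun i _ => S.f_succ_sq_le j k i
  have h2 := sum_child_eq hA β δ hind (fun i => (S.f j k i) ^ 2)
  have h3 : ∑ i ∈ A, β i * (S.f j k i) ^ 2 ≤ 0.1 * S.En j k A := by
    unfold En
    rw [Finset.mul_sum]
    apply Finset.sum_le_sum
    intro i _
    have hb := (le_abs_self (β i)).trans ((hβ i).trans (S.B_le j))
    exact mul_le_mul_of_nonneg_right hb (sq_nonneg _)
  have h4 := le_abs_self (∑ i ∈ A, δ i * (S.f j k i) ^ 2)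
  have h5 : ∑ i ∈ A, (S.f j k i) ^ 2 = S.En j k A := rfl
  rw [h5] at h2
  have h6 := S.En_nonneg j k A
  linarith

theorem Yb_nonneg' (a : ℕ) : 0 ≤ S.Yb a := by
  unfold Yb
  have h1 := S.K_nonneg
  have h2 := S.c'_pos
  split_ifs <;> positivity

/-- L6: (I2) for a child -/
theorem I2_child (j : ℕ) (A A' : Finset ι) (hA : A' ⊆ A) (h1 : S.I1 j A) (h2 : S.I2 j A)
    (β δ : ι → ℝ) (hβ : ∀ i, |β i| ≤ S.B j) (hδ : S.Good j A δ)
    (hind : ∀ i ∈ A, (if i ∈ A' then (1 : ℝ) else 0) = 1 / 2 + β i + δ i) :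
    S.I2 (j + 1) A' := by
  intro x hx
  have hK := S.K_nonneg
  have hΓ := S.Γ_nonneg
  have hdg := S.dg_nonneg x
  rcases Nat.lt_or_ge j x with hlt | hle
  · -- x = j + 1
    have hxe : x = j + 1 := by omega
    subst hxe
    have hY : S.Yb (j + 1 - (j + 1)) = 3 * S.c' + S.K := by
      rw [Nat.sub_self]
      unfold Yb
      rw [if_pos (by have := S.a2_pos; omega)]
      simp
    have hbound : ∀ k ∈ univ.filter (fun k : Fin d => S.g k = j + 1),
        (S.En (j + 1) k A') ^ 2 ≤ (S.Yb (j + 1 - (j + 1))) ^ 2 := by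
      intro k hk
      rw [Finset.mem_filter] at hk
      have hgk := hk.2
      have hjk : j < S.g k := by omega
      have e1 : S.En (j + 1) k A' ≤ ∑ i ∈ A, (S.v i k) ^ 2 := by
        calc S.En (j + 1) k A' ≤ ∑ i ∈ A', (S.v i k) ^ 2 :=
              Finset.sum_le_sum fun i _ => S.f_sq_le_v_sq (j + 1) k i
          _ ≤ ∑ i ∈ A, (S.v i k) ^ 2 :=
              Finset.sum_le_sum_of_subset_of_nonneg hA fun _ _ _ => sq_nonneg _
      have e2 := h1 (fun l => if l = k then 1 else 0) (by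
        intro l hl
        have : l ≠ k := by rintro rfl; exact hl hjk
        rw [if_neg this])
      simp only [ite_mul, one_mul, zero_mul, Finset.sum_ite_eq', Finset.mem_univ, if_true,
        ite_pow, one_pow, ne_eq, OfNat.ofNat_ne_zero, not_false_eq_true, zero_pow, mul_ite,
        mul_one, mul_zero] at e2
      have e3 := (abs_le.mp e2).2
      have e4 := S.rho_le j
      have e5 : S.lam k / 2 ^ (j + 1) < S.c' := by
        have := S.g_le k
        rw [hgk] at this
        exact this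
      have e6 : S.lam k / 2 ^ j = 2 * (S.lam k / 2 ^ (j + 1)) := by
        rw [pow_succ]; field_simp
      have e7 := S.lam_nonneg k
      have e8 : 0 ≤ S.lam k / 2 ^ j := by positivity
      have e9 : S.rho j * (S.lam k / 2 ^ j) ≤ 1 / 2 * (S.lam k / 2 ^ j) :=
        mul_le_mul_of_nonneg_right e4 e8
      have e10 : S.En (j + 1) k A' ≤ S.Yb (j + 1 - (j + 1)) := by
        rw [hY]
        linarith
      exact pow_le_pow_left₀ (S.En_nonneg _ _ _) e10 2
    calc ∑ k ∈ univ.filter (fun k : Fin d => S.g k = j + 1), (S.En (j + 1) k A') ^ 2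
        ≤ ∑ _k ∈ univ.filter (fun k : Fin d => S.g k = j + 1), (S.Yb (j + 1 - (j + 1))) ^ 2 :=
          Finset.sum_le_sum hbound
      _ = S.dg (j + 1) * (S.Yb (j + 1 - (j + 1))) ^ 2 := by
          rw [Finset.sum_const, nsmul_eq_mul]; rfl
  · -- x ≤ j
    set G := univ.filter (fun k : Fin d => S.g k = x) with hG
    set err : Fin d → ℝ := fun k => ∑ i ∈ A, δ i * (S.f j k i) ^ 2 with herr
    have hYj := S.Yb_nonneg' (j - x)
    have hYj1 := S.Yb_nonneg' (j + 1 - x)
    have n1 : nrm G (fun k => S.En (j + 1) k A') ≤ 0.6 * nrm G (fun k => S.En j k A)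
        + nrm G (fun k => |err k|) := by
      rw [← nrm_mul_left G (fun k => S.En j k A) (by norm_num : (0 : ℝ) ≤ 0.6)]
      refine le_trans (nrm_mono G _ (fun k => 0.6 * S.En j k A + |err k|) ?_)
        (nrm_add_le G _ _)
      intro k _
      rw [abs_of_nonneg (S.En_nonneg _ _ _)]
      exact S.En_child_le j A A' hA β δ hβ hind k
    have n2 : nrm G (fun k => S.En j k A) ≤ Real.sqrt (S.dg x) * S.Yb (j - x) := by
      unfold nrm
      calc _ ≤ Real.sqrt (S.dg x * (S.Yb (j - x)) ^ 2) := Real.sqrt_le_sqrt (h2 x hle)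
        _ = _ := by rw [Real.sqrt_mul hdg, Real.sqrt_sq hYj]
    have n3 : 0.6 * (Real.sqrt (S.dg x) * S.Yb (j - x)) + nrm G (fun k => |err k|)
        ≤ Real.sqrt (S.dg x) * S.Yb (j + 1 - x) := by
      have hsq : ∑ k ∈ G, |err k| ^ 2 = ∑ k ∈ G, (err k) ^ 2 :=
        Finset.sum_congr rfl fun k _ => sq_abs _
      rcases Nat.lt_or_ge j (x + S.a2) with hm | ho
      · have r := hδ.r4 x hle hm
        have hY := S.Yb_rec_mid (j - x) (by omega)
        have e1 : j - x + 1 = j + 1 - x := by omega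
        rw [e1] at hY
        have n4 : nrm G (fun k => |err k|)
            ≤ Real.sqrt (S.dg x) * Real.sqrt (S.Γ * S.Nm * S.Yb (j - x)) := by
          unfold nrm
          rw [hsq, ← Real.sqrt_mul hdg]
          apply Real.sqrt_le_sqrt
          calc ∑ k ∈ G, (err k) ^ 2 ≤ S.Γ * S.dg x * S.Nm * S.Yb (j - x) := r
            _ = _ := by ring
        have n5 := mul_le_mul_of_nonneg_left hY (Real.sqrt_nonneg (S.dg x))
        linarith
      · have r := hδ.r5 x ho
        have hY := S.Yb_rec_old (j - x) (by omega)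
        have e1 : j - x + 1 = j + 1 - x := by omega
        have e2 : j - x - S.a2 = j - (x + S.a2) := by omega
        rw [e1, e2] at hY
        have n4 : nrm G (fun k => |err k|) ≤ Real.sqrt (S.dg x)
            * Real.sqrt (S.Γ * (S.K + 1) * (0.64 : ℝ) ^ (j - (x + S.a2))) := by
          unfold nrm
          rw [hsq, ← Real.sqrt_mul hdg]
          apply Real.sqrt_le_sqrt
          calc ∑ k ∈ G, (err k) ^ 2
              ≤ S.Γ * S.dg x * (S.K + 1) * (0.64 : ℝ) ^ (j - (x + S.a2)) := r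
            _ = _ := by ring
        have n5 := mul_le_mul_of_nonneg_left hY (Real.sqrt_nonneg (S.dg x))
        linarith
    have n6 : nrm G (fun k => S.En (j + 1) k A') ≤ Real.sqrt (S.dg x) * S.Yb (j + 1 - x) := by
      linarith
    have n7 := (nrm_le_iff G (fun k => S.En (j + 1) k A')
      (by positivity : 0 ≤ Real.sqrt (S.dg x) * S.Yb (j + 1 - x))).mp n6
    rw [mul_pow, Real.sq_sqrt hdg] at n7
    exact n7

end Data

end Vale.Agent.H22.ST
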