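import Vale.Agent.H22.ST.L7a

/-!
# The invariant (I3) for the two children of a block
-/

set_option linter.unusedSectionVars false

noncomputable section

open Finset

namespace Vale.Agent.H22.ST

namespace Data

variable {ι : Type} [Fintype ι] [DecidableEq ι] {d : ℕ} (S : Data ι d)

theorem inc_nonneg (s : ℕ) : 0 ≤ S.inc s := by
  unfold inc
  have hK := S.K_nonneg
  split_ifs <;> positivity

theorem yb_nonneg (s : ℕ) : 0 ≤ S.yb s := Finset.sum_nonneg fun _ _ => S.inc_nonneg _

theorem yb_succ (s : ℕ) : S.yb (s + 1) = S.yb s + S.inc s := by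
  unfold yb
  rw [Finset.sum_range_succ]

/-- the new `Y` -/
def Ynew (j : ℕ) (A : Finset ι) (β δ : ι → ℝ) (Y : Fin d → ℝ) (k : Fin d) : ℝ :=
  if j + S.n < S.g k then 0
  else Y k + (|∑ i ∈ A, β i * S.f j k i| + |∑ i ∈ A, δ i * S.f j k i| + S.hn j A k)

theorem Ynew_nonneg (j : ℕ) (A : Finset ι) (β δ : ι → ℝ) {Y : Fin d → ℝ} (hY : ∀ k, 0 ≤ Y k)
    (k : Fin d) : 0 ≤ S.Ynew j A β δ Y k := by
  unfold Ynew
  have h1 := hY k
  have h2 := S.hn_nonneg j A k
  split_ifs
  · exact le_rfl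
  · positivity

theorem Ynew_norm {j : ℕ} {A : Finset ι} (h2 : S.I2 j A) {a : Fin d → ℝ} {β δ : ι → ℝ}
    (hβ : S.GoodBias j A a β) (hδ : S.Good j A δ) {Y : Fin d → ℝ} (hY : ∀ k, 0 ≤ Y k)
    (hg : ∀ x, ∑ k ∈ univ.filter (fun k : Fin d => S.g k = x), (Y k) ^ 2
      ≤ S.dg x * (S.yb (j + S.n + 1 - x)) ^ 2) (x : ℕ) :
    ∑ k ∈ univ.filter (fun k : Fin d => S.g k = x), (S.Ynew j A β δ Y k) ^ 2
      ≤ S.dg x * (S.yb (j + 1 + S.n + 1 - x)) ^ 2 := by
  by_cases hx : x ≤ j + S.n
  · have e1 : j + 1 + S.n + 1 - x = (j + S.n + 1 - x) + 1 := by omega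
    rw [e1, S.yb_succ]
    have hdg := S.dg_nonneg x
    have hy := S.yb_nonneg (j + S.n + 1 - x)
    have hi := S.inc_nonneg (j + S.n + 1 - x)
    have h3 : nrm (univ.filter (fun k : Fin d => S.g k = x)) (S.Ynew j A β δ Y)
        ≤ Real.sqrt (S.dg x) * (S.yb (j + S.n + 1 - x) + S.inc (j + S.n + 1 - x)) := by
      have h4 : nrm (univ.filter (fun k : Fin d => S.g k = x)) (S.Ynew j A β δ Y)
          ≤ nrm (univ.filter (fun k : Fin d => S.g k = x)) (fun k => Y k +
            (|∑ i ∈ A, β i * S.f j k i| + |∑ i ∈ A, δ i * S.f j k i| + S.hn j A k)) := by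
        apply nrm_mono
        intro k hk
        rw [Finset.mem_filter] at hk
        rw [abs_of_nonneg (S.Ynew_nonneg j A β δ hY k)]
        unfold Ynew
        rw [if_neg (by omega)]
      refine h4.trans ((nrm_add_le _ _ _).trans ?_)
      rw [mul_add]
      refine add_le_add ?_ (S.nrm_innov_le h2 hβ hδ hx)
      rw [nrm_le_iff _ _ (by positivity), mul_pow, Real.sq_sqrt hdg]
      exact hg x
    rw [nrm_le_iff _ _ (by positivity), mul_pow, Real.sq_sqrt hdg] at h3
    exact h3
  · have h0 : ∑ k ∈ univ.filter (fun k : Fin d => S.g k = x), (S.Ynew j A β δ Y k) ^ 2 = 0 := by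
      apply Finset.sum_eq_zero
      intro k hk
      rw [Finset.mem_filter] at hk
      unfold Ynew
      rw [if_pos (by omega)]
      norm_num
    rw [h0]
    exact mul_nonneg (S.dg_nonneg x) (sq_nonneg _)

/-- prefix control of the mixed vector -/
theorem prefix_mix {j : ℕ} {A : Finset ι} {δ : ι → ℝ} (hδ : S.Good j A δ) {X : Fin d → ℝ}
    (hX : ∀ b : ℕ, b ≤ d → (∀ k : Fin d, S.g k ≤ j + S.n → (k : ℕ) < b) →
      ∑ k ∈ univ.filter (fun k : Fin d => (k : ℕ) < b), (X k) ^ 2 ≤ S.Γ * b)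
    (b : ℕ) (hb : b ≤ d) (hb2 : ∀ k : Fin d, S.g k ≤ j + 1 + S.n → (k : ℕ) < b) :
    ∑ k ∈ univ.filter (fun k : Fin d => (k : ℕ) < b),
      (if j + S.n < S.g k then ∑ i ∈ A, δ i * S.v i k else X k) ^ 2 ≤ S.Γ * b := by
  have hpb : S.pj j ≤ b := by
    by_contra hcon
    have hlt : b < S.pj j := not_le.mp hcon
    have hbd : b < d := lt_of_lt_of_le hlt (S.pj_le j)
    have h1 := (S.nonrich_iff j ⟨b, hbd⟩).mpr hlt
    have h2 := hb2 ⟨b, hbd⟩ (by omega)
    exact lt_irrefl _ h2
  have hsplit : ∑ k ∈ univ.filter (fun k : Fin d => (k : ℕ) < b),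
      (if j + S.n < S.g k then ∑ i ∈ A, δ i * S.v i k else X k) ^ 2
      = ∑ k ∈ univ.filter (fun k : Fin d => (k : ℕ) < S.pj j), (X k) ^ 2
        + ∑ k ∈ univ.filter (fun k : Fin d => j + S.n < S.g k ∧ (k : ℕ) < b),
          (∑ i ∈ A, δ i * S.v i k) ^ 2 := by
    rw [← Finset.sum_filter_add_sum_filter_not
      (univ.filter (fun k : Fin d => (k : ℕ) < b)) (fun k => (k : ℕ) < S.pj j)]
    congr 1
    · rw [Finset.filter_filter]
      apply Finset.sum_congr
      · ext k
        simp only [Finset.mem_filter, Finset.mem_univ, true_and]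
        constructor
        · intro h; exact h.2
        · intro h; exact ⟨lt_of_lt_of_le h hpb, h⟩
      · intro k hk
        rw [Finset.mem_filter] at hk
        have := (S.nonrich_iff j k).mpr hk.2
        rw [if_neg (by omega)]
    · rw [Finset.filter_filter]
      apply Finset.sum_congr
      · ext k
        simp only [Finset.mem_filter, Finset.mem_univ, true_and]
        have := S.nonrich_iff j k
        constructor
        · intro h
          refine ⟨?_, h.1⟩
          by_contra hc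
          exact h.2 (this.mp (by omega))
        · intro h
          refine ⟨h.2, ?_⟩
          intro hc
          have := this.mpr hc
          omega
      · intro k hk
        rw [Finset.mem_filter] at hk
        rw [if_pos hk.2.1]
  rw [hsplit]
  have h1 := hX (S.pj j) (S.pj_le j) (fun k hk => (S.nonrich_iff j k).mp hk)
  have h2 := hδ.r1 b hb hpb
  calc _ ≤ S.Γ * (S.pj j : ℝ) + S.Γ * ((b : ℝ) - S.pj j) := add_le_add h1 h2
    _ = S.Γ * b := by ring

/-- L7: (I3) for the two children -/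
theorem I3_children (j : ℕ) (P A A0 : Finset ι) (hPA : Disjoint P A) (hA : A0 ⊆ A)
    (h2 : S.I2 j A) (h3 : S.I3 j P A) (β δ : ι → ℝ)
    (hβ : S.GoodBias j A (fun k => (S.D k P + S.D k (P ∪ A)) / 2) β) (hδ : S.Good j A δ)
    (hind : ∀ i ∈ A, (if i ∈ A0 then (1 : ℝ) else 0) = 1 / 2 + β i + δ i) :
    S.I3 (j + 1) P A0 ∧ S.I3 (j + 1) (P ∪ A0) (A \ A0) := by
  obtain ⟨Xl, Xr, Y, κ, hY0, hb, hc, hd, he, hfl, hfr, hg⟩ := h3
  have hPA0 : Disjoint P A0 := Finset.disjoint_of_subset_right hA hPA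
  -- sums over subsets
  have hsumA0 : ∀ u : ι → ℝ, ∑ i ∈ A0, u i
      = (1 / 2) * ∑ i ∈ A, u i + ∑ i ∈ A, β i * u i + ∑ i ∈ A, δ i * u i := by
    intro u
    have h1 : ∑ i ∈ A0, u i = ∑ i ∈ A, (if i ∈ A0 then (1 : ℝ) else 0) * u i := by
      rw [← Finset.sum_filter_add_sum_filter_not A (fun i => i ∈ A0)]
      have h11 : A.filter (fun i => i ∈ A0) = A0 := by
        ext i; simp only [Finset.mem_filter]; exact ⟨fun h => h.2, fun h => ⟨hA h, h⟩⟩
      rw [h11]
      have h12 : ∑ i ∈ A0, (if i ∈ A0 then (1 : ℝ) else 0) * u i = ∑ i ∈ A0, u i := by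
        apply Finset.sum_congr rfl
        intro i hi
        rw [if_pos hi, one_mul]
      have h13 : ∑ i ∈ A.filter (fun i => ¬ i ∈ A0), (if i ∈ A0 then (1 : ℝ) else 0) * u i
          = 0 := by
        apply Finset.sum_eq_zero
        intro i hi
        rw [Finset.mem_filter] at hi
        rw [if_neg hi.2, zero_mul]
      rw [h12, h13, add_zero]
    rw [h1, Finset.mul_sum, ← Finset.sum_add_distrib, ← Finset.sum_add_distrib]
    apply Finset.sum_congr rfl
    intro i hi
    rw [hind i hi]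
    ring
  have hPu : ∀ u : ι → ℝ, ∑ i ∈ P ∪ A0, u i = ∑ i ∈ P, u i + ∑ i ∈ A0, u i :=
    fun u => Finset.sum_union hPA0
  have hPuA : ∀ u : ι → ℝ, ∑ i ∈ P ∪ A, u i = ∑ i ∈ P, u i + ∑ i ∈ A, u i :=
    fun u => Finset.sum_union hPA
  have hsd : ∀ u : ι → ℝ, ∑ i ∈ A, u i = ∑ i ∈ A0, u i + ∑ i ∈ A \ A0, u i := by
    intro u
    rw [add_comm, Finset.sum_sdiff hA]
  have hun : P ∪ A0 ∪ (A \ A0) = P ∪ A := by
    rw [Finset.union_assoc, Finset.union_sdiff_of_subset hA]
  -- midpoint light sum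
  have hmid : ∀ k, ∑ i ∈ P ∪ A0, S.f j k i + κ k
      = ((∑ i ∈ P, S.f j k i + κ k) + (∑ i ∈ P ∪ A, S.f j k i + κ k)) / 2
        + ∑ i ∈ A, β i * S.f j k i + ∑ i ∈ A, δ i * S.f j k i := by
    intro k
    rw [hPu, hPuA, hsumA0]
    ring
  -- midpoint in the rich directions
  have hrich : ∀ k, j + S.n < S.g k → ∑ i ∈ P ∪ A0, S.f j k i = ∑ i ∈ A, δ i * S.v i k := by
    intro k hk
    have hf : ∀ i, S.f j k i = S.v i k := fun i => S.f_of_le (by omega) i
    simp only [hf]
    have h1 := hβ.b1 k hk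
    have h4 : S.D k P + S.D k (P ∪ A) = 2 * ∑ i ∈ P, S.v i k + ∑ i ∈ A, S.v i k := by
      unfold D
      rw [hPuA]
      ring
    rw [hPu, hsumA0, h1, h4]
    ring
  have hDrich : ∀ k, j + S.n < S.g k → S.D k (P ∪ A0) = ∑ i ∈ A, δ i * S.v i k := by
    intro k hk
    rw [← hrich k hk]
    unfold D
    apply Finset.sum_congr rfl
    intro i _
    rw [S.f_of_le (by omega)]
  -- abbreviations
  set nf : Fin d → ι → ℝ := fun k i => S.f j k i - S.f (j + 1) k i with hnf
  have hnf_le : ∀ k (Q : Finset ι), Q ⊆ A → |∑ i ∈ Q, nf k i| ≤ S.hn j A k := by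
    intro k Q hQ
    calc |∑ i ∈ Q, nf k i| ≤ ∑ i ∈ Q, |nf k i| := Finset.abs_sum_le_sum_abs _ _
      _ ≤ ∑ i ∈ A, |nf k i| :=
        Finset.sum_le_sum_of_subset_of_nonneg hQ (fun _ _ _ => abs_nonneg _)
  have hnf_abs : ∀ k (Q : Finset ι), Q ⊆ A → ∑ i ∈ Q, |nf k i| ≤ S.hn j A k := by
    intro k Q hQ
    exact Finset.sum_le_sum_of_subset_of_nonneg hQ (fun _ _ _ => abs_nonneg _)
  have hfsucc : ∀ k (Q : Finset ι), ∑ i ∈ Q, S.f (j + 1) k i
      = ∑ i ∈ Q, S.f j k i - ∑ i ∈ Q, nf k i := by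
    intro k Q
    rw [← Finset.sum_sub_distrib]
    apply Finset.sum_congr rfl
    intro i _
    simp only [hnf]
    ring
  have hhvsucc : ∀ k (Q : Finset ι), ∑ i ∈ Q, S.hv (j + 1) k i
      = ∑ i ∈ Q, S.hv j k i + ∑ i ∈ Q, nf k i := by
    intro k Q
    rw [← Finset.sum_add_distrib]
    exact Finset.sum_congr rfl fun i _ => S.hv_succ j k i
  have hhvabs : ∀ k (Q : Finset ι), ∑ i ∈ Q, |S.hv (j + 1) k i|
      ≤ ∑ i ∈ Q, |S.hv j k i| + ∑ i ∈ Q, |nf k i| := by
    intro k Q
    rw [← Finset.sum_add_distrib]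
    apply Finset.sum_le_sum
    intro i _
    rw [S.hv_succ j k i]
    exact abs_add_le _ _
  have hnf0 : ∀ k, j + S.n < S.g k → ∀ i, nf k i = 0 := by
    intro k hk i
    have ha := S.a2_pos
    simp only [hnf]
    rw [S.f_of_le (by omega), S.f_of_le (by omega), sub_self]
  have hhv0 : ∀ k, j + S.n < S.g k → ∀ i, S.hv (j + 1) k i = 0 := by
    intro k hk i
    have ha := S.a2_pos
    exact S.hv_of_le (by omega) i
  have hYn := S.Ynew_nonneg j A β δ hY0
  have hYnorm := S.Ynew_norm h2 hβ hδ hY0 hg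
  -- nonrich midpoint bound
  have hmidle : ∀ k, ¬ j + S.n < S.g k → |∑ i ∈ P ∪ A0, S.f j k i + κ k|
      ≤ |Xl k| + |Xr k| + (Y k + (|∑ i ∈ A, β i * S.f j k i|
        + |∑ i ∈ A, δ i * S.f j k i|)) := by
    intro k _
    rw [hmid k]
    have h1 := hb k
    have h4 := hc k
    have h5 := abs_add_le (((∑ i ∈ P, S.f j k i + κ k) + (∑ i ∈ P ∪ A, S.f j k i + κ k)) / 2
      + ∑ i ∈ A, β i * S.f j k i) (∑ i ∈ A, δ i * S.f j k i)
    have h6 := abs_add_le (((∑ i ∈ P, S.f j k i + κ k) + (∑ i ∈ P ∪ A, S.f j k i + κ k)) / 2)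
      (∑ i ∈ A, β i * S.f j k i)
    have h7 : |((∑ i ∈ P, S.f j k i + κ k) + (∑ i ∈ P ∪ A, S.f j k i + κ k)) / 2|
        ≤ |Xl k| + |Xr k| + Y k := by
      rw [abs_le] at h1 h4 ⊢
      constructor <;> linarith [h1.1, h1.2, h4.1, h4.2]
    linarith
  constructor
  · -- left child
    refine ⟨Xl, fun k => if j + S.n < S.g k then ∑ i ∈ A, δ i * S.v i k else Xr k,
      S.Ynew j A β δ Y, fun k => κ k + ∑ i ∈ P, nf k i, hYn, ?_, ?_, ?_, ?_, ?_, ?_, hYnorm⟩
    · intro k
      have h1 : ∑ i ∈ P, S.f (j + 1) k i + (κ k + ∑ i ∈ P, nf k i)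
          = ∑ i ∈ P, S.f j k i + κ k := by
        rw [hfsucc]; ring
      rw [h1]
      by_cases hk : j + S.n < S.g k
      · simp only [if_pos hk]
        have h4 := he k hk
        have h5 : ∑ i ∈ P, S.f j k i = Xl k := by
          rw [h4.1]
          unfold D
          apply Finset.sum_congr rfl
          intro i _
          rw [S.f_of_le (by omega)]
        rw [h5, h4.2.2.2, add_zero]
        have h6 := abs_nonneg (∑ i ∈ A, δ i * S.v i k)
        have h7 := hYn k
        linarith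
      · simp only [if_neg hk]
        have h4 := hb k
        have h5 := abs_nonneg (∑ i ∈ A, β i * S.f j k i)
        have h6 := abs_nonneg (∑ i ∈ A, δ i * S.f j k i)
        have h7 := S.hn_nonneg j A k
        unfold Ynew
        rw [if_neg hk]
        linarith
    · intro k
      have h1 : ∑ i ∈ P ∪ A0, S.f (j + 1) k i + (κ k + ∑ i ∈ P, nf k i)
          = (∑ i ∈ P ∪ A0, S.f j k i + κ k) - ∑ i ∈ A0, nf k i := by
        rw [hfsucc, hPu (fun i => nf k i)]; ring
      rw [h1]
      by_cases hk : j + S.n < S.g k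
      · simp only [if_pos hk]
        have h4 := he k hk
        have h5 : ∑ i ∈ A0, nf k i = 0 := Finset.sum_eq_zero fun i _ => hnf0 k hk i
        rw [hrich k hk, h4.2.2.2, h5, add_zero, sub_zero]
        have h6 := abs_nonneg (Xl k)
        have h7 := hYn k
        linarith
      · simp only [if_neg hk]
        have h4 := hmidle k hk
        have h5 := hnf_le k A0 hA
        have h6 := abs_sub (∑ i ∈ P ∪ A0, S.f j k i + κ k) (∑ i ∈ A0, nf k i)
        unfold Ynew
        rw [if_neg hk]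
        linarith
    · intro k
      have h1 : ∑ i ∈ P, S.hv (j + 1) k i - (κ k + ∑ i ∈ P, nf k i)
          = ∑ i ∈ P, S.hv j k i - κ k := by
        rw [hhvsucc]; ring
      rw [h1]
      by_cases hk : j + S.n < S.g k
      · have h4 := he k hk
        have h5 := hd k
        have h6 : ∑ i ∈ A0, |S.hv (j + 1) k i| = 0 := by
          apply Finset.sum_eq_zero
          intro i _
          rw [hhv0 k hk i, abs_zero]
        have h7 := hYn k
        have h8 : 0 ≤ ∑ i ∈ A, |S.hv j k i| := Finset.sum_nonneg fun _ _ => abs_nonneg _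
        rw [h6]
        linarith [h4.2.2.1]
      · have h4 := hd k
        have h5 := hhvabs k A0
        have h6 := hnf_abs k A0 hA
        have h7 : ∑ i ∈ A0, |S.hv j k i| ≤ ∑ i ∈ A, |S.hv j k i| :=
          Finset.sum_le_sum_of_subset_of_nonneg hA (fun _ _ _ => abs_nonneg _)
        have h8 := abs_nonneg (∑ i ∈ A, β i * S.f j k i)
        have h9 := abs_nonneg (∑ i ∈ A, δ i * S.f j k i)
        unfold Ynew
        rw [if_neg hk]
        linarith
    · intro k hk
      have hk' : j + S.n < S.g k := by omega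
      have h4 := he k hk'
      refine ⟨h4.1, ?_, ?_, ?_⟩
      · simp only [if_pos hk']
        exact (hDrich k hk').symm
      · unfold Ynew
        rw [if_pos hk']
      · show κ k + ∑ i ∈ P, nf k i = 0
        rw [h4.2.2.2, Finset.sum_eq_zero fun i _ => hnf0 k hk' i, add_zero]
    · intro b hb' hb2
      exact hfl b hb' (fun k hk => hb2 k (by omega))
    · intro b hb' hb2
      exact S.prefix_mix hδ hfr b hb' hb2
  · -- right child
    refine ⟨fun k => if j + S.n < S.g k then ∑ i ∈ A, δ i * S.v i k else Xl k, Xr,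
      S.Ynew j A β δ Y, fun k => κ k + ∑ i ∈ P ∪ A0, nf k i, hYn, ?_, ?_, ?_, ?_, ?_, ?_,
      hYnorm⟩
    · intro k
      have h1 : ∑ i ∈ P ∪ A0, S.f (j + 1) k i + (κ k + ∑ i ∈ P ∪ A0, nf k i)
          = ∑ i ∈ P ∪ A0, S.f j k i + κ k := by
        rw [hfsucc]; ring
      rw [h1]
      by_cases hk : j + S.n < S.g k
      · simp only [if_pos hk]
        have h4 := he k hk
        rw [hrich k hk, h4.2.2.2, add_zero]
        have h6 := abs_nonneg (Xr k)
        have h7 := hYn k
        linarith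
      · simp only [if_neg hk]
        have h4 := hmidle k hk
        have h7 := S.hn_nonneg j A k
        unfold Ynew
        rw [if_neg hk]
        linarith
    · intro k
      rw [hun]
      have h1 : ∑ i ∈ P ∪ A, S.f (j + 1) k i + (κ k + ∑ i ∈ P ∪ A0, nf k i)
          = (∑ i ∈ P ∪ A, S.f j k i + κ k) - ∑ i ∈ A \ A0, nf k i := by
        rw [hfsucc, hPuA (fun i => nf k i), hPu (fun i => nf k i), hsd (fun i => nf k i)]
        ring
      rw [h1]
      by_cases hk : j + S.n < S.g k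
      · simp only [if_pos hk]
        have h4 := he k hk
        have h5 : ∑ i ∈ A \ A0, nf k i = 0 := Finset.sum_eq_zero fun i _ => hnf0 k hk i
        have h6 : ∑ i ∈ P ∪ A, S.f j k i = Xr k := by
          rw [h4.2.1]
          unfold D
          apply Finset.sum_congr rfl
          intro i _
          rw [S.f_of_le (by omega)]
        rw [h6, h4.2.2.2, h5, add_zero, sub_zero]
        have h7 := abs_nonneg (∑ i ∈ A, δ i * S.v i k)
        have h8 := hYn k
        linarith
      · simp only [if_neg hk]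
        have h4 := hc k
        have h5 := hnf_le k (A \ A0) Finset.sdiff_subset
        have h6 := abs_sub (∑ i ∈ P ∪ A, S.f j k i + κ k) (∑ i ∈ A \ A0, nf k i)
        have h8 := abs_nonneg (∑ i ∈ A, β i * S.f j k i)
        have h9 := abs_nonneg (∑ i ∈ A, δ i * S.f j k i)
        unfold Ynew
        rw [if_neg hk]
        linarith
    · intro k
      have h1 : ∑ i ∈ P ∪ A0, S.hv (j + 1) k i - (κ k + ∑ i ∈ P ∪ A0, nf k i)
          = (∑ i ∈ P, S.hv j k i - κ k) + ∑ i ∈ A0, S.hv j k i := by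
        rw [hhvsucc, hPu (fun i => S.hv j k i)]; ring
      rw [h1]
      by_cases hk : j + S.n < S.g k
      · have h4 := he k hk
        have h5 := hd k
        have h6 : ∑ i ∈ A \ A0, |S.hv (j + 1) k i| = 0 := by
          apply Finset.sum_eq_zero
          intro i _
          rw [hhv0 k hk i, abs_zero]
        have h7 := hYn k
        have h8 : ∑ i ∈ A0, |S.hv j k i| ≤ ∑ i ∈ A, |S.hv j k i| :=
          Finset.sum_le_sum_of_subset_of_nonneg hA (fun _ _ _ => abs_nonneg _)
        have h9 := abs_add_le (∑ i ∈ P, S.hv j k i - κ k) (∑ i ∈ A0, S.hv j k i)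
        have h10 := Finset.abs_sum_le_sum_abs (fun i => S.hv j k i) A0
        rw [h6]
        linarith [h4.2.2.1]
      · have h4 := hd k
        have h5 := hhvabs k (A \ A0)
        have h6 := hnf_abs k (A \ A0) Finset.sdiff_subset
        have h7 := hsd (fun i => |S.hv j k i|)
        have h8 := abs_nonneg (∑ i ∈ A, β i * S.f j k i)
        have h9 := abs_nonneg (∑ i ∈ A, δ i * S.f j k i)
        have h10 := abs_add_le (∑ i ∈ P, S.hv j k i - κ k) (∑ i ∈ A0, S.hv j k i)
        have h11 := Finset.abs_sum_le_sum_abs (fun i => S.hv j k i) A0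
        unfold Ynew
        rw [if_neg hk]
        linarith
    · intro k hk
      have hk' : j + S.n < S.g k := by omega
      have h4 := he k hk'
      refine ⟨?_, ?_, ?_, ?_⟩
      · simp only [if_pos hk']
        exact (hDrich k hk').symm
      · rw [hun]; exact h4.2.1
      · unfold Ynew
        rw [if_pos hk']
      · show κ k + ∑ i ∈ P ∪ A0, nf k i = 0
        rw [h4.2.2.2, Finset.sum_eq_zero fun i _ => hnf0 k hk' i, add_zero]
    · intro b hb' hb2
      exact S.prefix_mix hδ hfl b hb' hb2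
    · intro b hb' hb2
      exact hfr b hb' (fun k hk => hb2 k (by omega))

end Data

end Vale.Agent.H22.ST
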