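import Vale.Agent.H22.ST.Basic

/-!
# Innovation bounds for the invariant (I3)
-/

set_option linter.unusedSectionVars false

noncomputable section

open Finset

namespace Vale.Agent.H22.ST

namespace Data

variable {ι : Type} [Fintype ι] [DecidableEq ι] {d : ℕ} (S : Data ι d)

theorem Γ_nonneg : 0 ≤ S.Γ := by
  have h1 := S.Γ_ge
  have h2 : 0 ≤ Real.log d := Real.log_natCast_nonneg d
  linarith

theorem K_nonneg : 0 ≤ S.K := by
  rw [S.K_eq]
  have := S.Γ_nonneg
  positivity

theorem Yb_nonneg (a : ℕ) : 0 ≤ S.Yb a := by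
  unfold Yb
  have h1 := S.K_nonneg
  have h2 := S.c'_ge
  split_ifs
  · positivity
  · positivity

theorem Yb_le_mid {a : ℕ} (ha : a < S.a2) : S.Yb a ≤ 3 * S.c' + S.K := by
  unfold Yb
  rw [if_pos ha]
  have h2 := S.c'_ge
  have h3 : (0.8 : ℝ) ^ a ≤ 1 := pow_le_one₀ (by norm_num) (by norm_num)
  nlinarith

theorem Yb_old {a : ℕ} (ha : S.a2 ≤ a) : S.Yb a = (S.K + 1) * 0.8 ^ (a - S.a2) := by
  unfold Yb
  rw [if_neg (not_lt.mpr ha)]

theorem inc_nonneg' (s : ℕ) : 0 ≤ S.inc s := by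
  unfold inc
  have hK := S.K_nonneg
  split_ifs <;> positivity

theorem yb_succ' (s : ℕ) : S.yb (s + 1) = S.yb s + S.inc s := by
  unfold yb
  rw [Finset.sum_range_succ]

/-- squared shift is controlled by the energies -/
theorem sq_shift_le {j : ℕ} {A : Finset ι} {a : Fin d → ℝ} {β : ι → ℝ}
    (hβ : S.GoodBias j A a β) (k : Fin d) :
    (∑ i ∈ A, β i * S.f j k i) ^ 2 ≤ 2 * S.R ^ 2 / (S.c' * 2 ^ S.n) * S.En j k A := by
  have h := Finset.sum_mul_sq_le_sq_mul_sq A β (fun i => S.f j k i)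
  refine h.trans ?_
  exact mul_le_mul_of_nonneg_right hβ.b4 (S.En_nonneg j k A)

theorem nrm_shift_le {j : ℕ} {A : Finset ι} (h2 : S.I2 j A) {a : Fin d → ℝ} {β : ι → ℝ}
    (hβ : S.GoodBias j A a β) {x : ℕ} (hx : x ≤ j) {Y : ℝ} (hY : S.Yb (j - x) ≤ Y) :
    nrm (univ.filter (fun k : Fin d => S.g k = x)) (fun k => |∑ i ∈ A, β i * S.f j k i|)
      ≤ Real.sqrt (S.dg x) * Real.sqrt (2 * S.R ^ 2 * Y / (S.c' * 2 ^ S.n)) := by
  have hc := S.c'_ge
  have hY0 := S.Yb_nonneg (j - x)
  rw [← Real.sqrt_mul (S.dg_nonneg x)]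
  apply Real.sqrt_le_sqrt
  calc ∑ k ∈ univ.filter (fun k : Fin d => S.g k = x), |∑ i ∈ A, β i * S.f j k i| ^ 2
      ≤ ∑ k ∈ univ.filter (fun k : Fin d => S.g k = x),
        2 * S.R ^ 2 / (S.c' * 2 ^ S.n) * S.En j k A := by
        apply Finset.sum_le_sum
        intro k _
        rw [sq_abs]
        exact S.sq_shift_le hβ k
    _ = 2 * S.R ^ 2 / (S.c' * 2 ^ S.n) *
        ∑ k ∈ univ.filter (fun k : Fin d => S.g k = x), S.En j k A := by
        rw [Finset.mul_sum]
    _ ≤ 2 * S.R ^ 2 / (S.c' * 2 ^ S.n) * (S.dg x * S.Yb (j - x)) :=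
        mul_le_mul_of_nonneg_left (S.sum_En_le h2 hx hY0) (by positivity)
    _ ≤ 2 * S.R ^ 2 / (S.c' * 2 ^ S.n) * (S.dg x * Y) :=
        mul_le_mul_of_nonneg_left (mul_le_mul_of_nonneg_left hY (S.dg_nonneg x)) (by positivity)
    _ = S.dg x * (2 * S.R ^ 2 * Y / (S.c' * 2 ^ S.n)) := by ring

/-- newly heavy mass -/
def hn (j : ℕ) (A : Finset ι) (k : Fin d) : ℝ := ∑ i ∈ A, |S.f j k i - S.f (j + 1) k i|

theorem hn_nonneg (j : ℕ) (A : Finset ι) (k : Fin d) : 0 ≤ S.hn j A k :=
  Finset.sum_nonneg fun _ _ => abs_nonneg _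

theorem hn_eq_zero {j : ℕ} {k : Fin d} (A : Finset ι) (h : j < S.g k + S.a2) :
    S.hn j A k = 0 := by
  unfold hn
  apply Finset.sum_eq_zero
  intro i _
  rw [S.f_of_le (le_of_lt h), S.f_of_le (Nat.succ_le_of_lt h), sub_self, abs_zero]

theorem hn_le {j : ℕ} {k : Fin d} (A : Finset ι) (h : S.g k + S.a2 ≤ j) :
    S.hn j A k ≤ S.En j k A / 0.85 ^ (j - (S.g k + S.a2) + 1) := by
  have hs : Real.sqrt (S.thr (j + 1) k) = 0.85 ^ (j - (S.g k + S.a2) + 1) := by
    unfold thr
    have : j + 1 - (S.g k + S.a2) = j - (S.g k + S.a2) + 1 := by omega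
    rw [this, ← pow_mul, mul_comm, pow_mul]
    exact Real.sqrt_sq (by positivity)
  rw [le_div_iff₀ (by positivity), ← hs]
  unfold hn En
  rw [Finset.sum_mul]
  exact Finset.sum_le_sum fun i _ => S.abs_sub_succ_le j k i

theorem nrm_innov_le {j : ℕ} {A : Finset ι} (h2 : S.I2 j A) {a : Fin d → ℝ} {β δ : ι → ℝ}
    (hβ : S.GoodBias j A a β) (hδ : S.Good j A δ) {x : ℕ} (hx : x ≤ j + S.n) :
    nrm (univ.filter (fun k : Fin d => S.g k = x))
      (fun k => |∑ i ∈ A, β i * S.f j k i| + |∑ i ∈ A, δ i * S.f j k i| + S.hn j A k)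
      ≤ Real.sqrt (S.dg x) * S.inc (j + S.n + 1 - x) := by
  have hdg := S.dg_nonneg x
  have hsd := Real.sqrt_nonneg (S.dg x)
  have hΓ := S.Γ_nonneg
  have hK := S.K_nonneg
  have hc := S.c'_ge
  refine (nrm_add_le _ _ _).trans ?_
  refine (add_le_add (nrm_add_le _ _ _) le_rfl).trans ?_
  by_cases hmid : j < x + S.a2
  · -- middle
    have h3 : nrm (univ.filter (fun k : Fin d => S.g k = x)) (fun k => S.hn j A k) = 0 := by
      unfold nrm
      rw [Finset.sum_eq_zero, Real.sqrt_zero]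
      intro k hk
      rw [Finset.mem_filter] at hk
      show (S.hn j A k) ^ 2 = 0
      rw [S.hn_eq_zero A (by omega)]
      norm_num
    have h4 : nrm (univ.filter (fun k : Fin d => S.g k = x))
        (fun k => |∑ i ∈ A, δ i * S.f j k i|)
        ≤ Real.sqrt (S.dg x) * Real.sqrt (S.Γ * S.Nm) := by
      rw [← Real.sqrt_mul hdg]
      apply Real.sqrt_le_sqrt
      calc _ = ∑ k ∈ univ.filter (fun k : Fin d => S.g k = x), (∑ i ∈ A, δ i * S.v i k) ^ 2 := by
            apply Finset.sum_congr rfl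
            intro k hk
            rw [Finset.mem_filter] at hk
            rw [sq_abs]
            congr 1
            apply Finset.sum_congr rfl
            intro i _
            rw [S.f_of_le (by omega)]
        _ ≤ S.Γ * S.dg x * S.Nm := hδ.r2 x hx hmid
        _ = S.dg x * (S.Γ * S.Nm) := by ring
    have h5 : nrm (univ.filter (fun k : Fin d => S.g k = x))
        (fun k => |∑ i ∈ A, β i * S.f j k i|)
        ≤ Real.sqrt (S.dg x)
          * Real.sqrt (2 * S.R ^ 2 * (3 * S.c' + S.K) / (S.c' * 2 ^ S.n)) := by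
      by_cases hxj : x ≤ j
      · exact S.nrm_shift_le h2 hβ hxj (S.Yb_le_mid (by omega))
      · have h6 : nrm (univ.filter (fun k : Fin d => S.g k = x))
            (fun k => |∑ i ∈ A, β i * S.f j k i|) = 0 := by
          unfold nrm
          rw [Finset.sum_eq_zero, Real.sqrt_zero]
          intro k hk
          rw [Finset.mem_filter] at hk
          have h7 := hβ.b2 k (by omega) (by omega)
          have h8 : ∑ i ∈ A, β i * S.f j k i = ∑ i ∈ A, β i * S.v i k := by
            apply Finset.sum_congr rfl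
            intro i _
            rw [S.f_of_le (by omega)]
          show |∑ i ∈ A, β i * S.f j k i| ^ 2 = 0
          rw [h8, h7]
          norm_num
        rw [h6]
        positivity
    have h6 : S.inc (j + S.n + 1 - x) = Real.sqrt (S.Γ * S.Nm)
        + Real.sqrt (2 * S.R ^ 2 * (3 * S.c' + S.K) / (S.c' * 2 ^ S.n)) := by
      unfold inc
      rw [if_neg (by omega), if_pos (by unfold Nm; omega)]
    rw [h3, h6, mul_add]
    linarith
  · -- old
    have hold : x + S.a2 ≤ j := not_lt.mp hmid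
    set m := j - (x + S.a2) with hm
    have hYo : S.Yb (j - x) = (S.K + 1) * 0.8 ^ m := by
      rw [S.Yb_old (by omega)]
      congr 2
      omega
    have h4 : nrm (univ.filter (fun k : Fin d => S.g k = x))
        (fun k => |∑ i ∈ A, δ i * S.f j k i|)
        ≤ Real.sqrt (S.dg x) * (Real.sqrt (S.Γ * (S.K + 1)) * 0.94 ^ m) := by
      have h41 : Real.sqrt (S.dg x) * (Real.sqrt (S.Γ * (S.K + 1)) * 0.94 ^ m)
          = Real.sqrt (S.Γ * S.dg x * (S.K + 1) * (0.94 ^ 2 : ℝ) ^ m) := by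
        have : (0.94 : ℝ) ^ m = Real.sqrt ((0.94 ^ 2 : ℝ) ^ m) := by
          rw [← pow_mul, mul_comm, pow_mul]
          exact (Real.sqrt_sq (by positivity)).symm
        rw [this, ← Real.sqrt_mul (by positivity), ← Real.sqrt_mul hdg]
        congr 1
        ring
      rw [h41]
      apply Real.sqrt_le_sqrt
      calc _ = ∑ k ∈ univ.filter (fun k : Fin d => S.g k = x),
            (∑ i ∈ A, δ i * S.f j k i) ^ 2 := by
            apply Finset.sum_congr rfl
            intro k hk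
            rw [sq_abs]
        _ ≤ _ := hδ.r3 x hold
    have h5 : nrm (univ.filter (fun k : Fin d => S.g k = x))
        (fun k => |∑ i ∈ A, β i * S.f j k i|)
        ≤ Real.sqrt (S.dg x)
          * (Real.sqrt (2 * S.R ^ 2 * (S.K + 1) / (S.c' * 2 ^ S.n)) * 0.9 ^ m) := by
      refine (S.nrm_shift_le h2 hβ (x := x) (by omega) (le_of_eq hYo)).trans ?_
      apply mul_le_mul_of_nonneg_left _ hsd
      have h51 : 2 * S.R ^ 2 * ((S.K + 1) * 0.8 ^ m) / (S.c' * 2 ^ S.n)
          ≤ 2 * S.R ^ 2 * (S.K + 1) / (S.c' * 2 ^ S.n) * (0.9 ^ m) ^ 2 := by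
        have h52 : (0.8 : ℝ) ^ m ≤ (0.9 ^ m) ^ 2 := by
          rw [← pow_mul, mul_comm, pow_mul]
          exact pow_le_pow_left₀ (by norm_num) (by norm_num) m
        calc 2 * S.R ^ 2 * ((S.K + 1) * 0.8 ^ m) / (S.c' * 2 ^ S.n)
            = 2 * S.R ^ 2 * (S.K + 1) / (S.c' * 2 ^ S.n) * 0.8 ^ m := by ring
          _ ≤ _ := mul_le_mul_of_nonneg_left h52 (by positivity)
      refine (Real.sqrt_le_sqrt h51).trans ?_
      rw [Real.sqrt_mul (by positivity), Real.sqrt_sq (by positivity)]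
    have h3 : nrm (univ.filter (fun k : Fin d => S.g k = x)) (fun k => S.hn j A k)
        ≤ Real.sqrt (S.dg x) * ((S.K + 1) / 0.85 * (0.8 / 0.85) ^ m) := by
      have h31 : nrm (univ.filter (fun k : Fin d => S.g k = x)) (fun k => S.hn j A k)
          ≤ nrm (univ.filter (fun k : Fin d => S.g k = x))
            (fun k => (1 / 0.85 ^ (m + 1) : ℝ) * S.En j k A) := by
        apply nrm_mono
        intro k hk
        rw [Finset.mem_filter] at hk
        rw [abs_of_nonneg (S.hn_nonneg j A k)]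
        have := S.hn_le A (k := k) (j := j) (by omega)
        rw [hk.2] at this
        rw [one_div, inv_mul_eq_div]
        exact this
      refine h31.trans ?_
      rw [nrm_mul_left _ _ (by positivity)]
      have h32 : nrm (univ.filter (fun k : Fin d => S.g k = x)) (fun k => S.En j k A)
          ≤ Real.sqrt (S.dg x) * ((S.K + 1) * 0.8 ^ m) := by
        have := h2 x (by omega)
        rw [hYo] at this
        rw [nrm_le_iff _ _ (by positivity), mul_pow, Real.sq_sqrt hdg]
        exact this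
      calc 1 / 0.85 ^ (m + 1) * nrm (univ.filter (fun k : Fin d => S.g k = x))
            (fun k => S.En j k A)
          ≤ 1 / 0.85 ^ (m + 1) * (Real.sqrt (S.dg x) * ((S.K + 1) * 0.8 ^ m)) :=
            mul_le_mul_of_nonneg_left h32 (by positivity)
        _ = Real.sqrt (S.dg x) * ((S.K + 1) / 0.85 * (0.8 / 0.85) ^ m) := by
            rw [div_pow, pow_succ]
            field_simp
    have h6 : S.inc (j + S.n + 1 - x) = Real.sqrt (S.Γ * (S.K + 1)) * 0.94 ^ m
        + Real.sqrt (2 * S.R ^ 2 * (S.K + 1) / (S.c' * 2 ^ S.n)) * 0.9 ^ m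
        + (S.K + 1) / 0.85 * (0.8 / 0.85) ^ m := by
      unfold inc
      have h7 : j + S.n + 1 - x - S.Nm - 1 = m := by unfold Nm; omega
      rw [if_neg (by omega), if_neg (by unfold Nm; omega), h7]
    rw [h6, mul_add, mul_add]
    linarith

end Data

end Vale.Agent.H22.ST
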