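import Vale.Agent.H22.ST.L2

/-!
# Both endpoints of a block stay in the ball of radius `R` (L8)
-/

set_option linter.unusedSectionVars false

noncomputable section

open Finset

namespace Vale.Agent.H22.ST

namespace Data

variable {ι : Type} [Fintype ι] [DecidableEq ι] {d : ℕ} (S : Data ι d)

theorem sum_dg (t : Finset ℕ) (ht : ∀ k, S.g k ∈ t) : ∑ x ∈ t, S.dg x = d := by
  unfold dg
  have h := Finset.card_eq_sum_card_fiberwise (s := (univ : Finset (Fin d))) (t := t)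
    (f := S.g) (fun k _ => by exact_mod_cast ht k)
  rw [Finset.card_univ, Fintype.card_fin] at h
  rw [← Nat.cast_sum, ← h]

theorem sum_Y_sq {j : ℕ} {Y : Fin d → ℝ}
    (h : ∀ x, ∑ k ∈ univ.filter (fun k : Fin d => S.g k = x), (Y k) ^ 2
      ≤ S.dg x * (S.yb (j + S.n + 1 - x)) ^ 2)
    (hyb : ∀ s, 0 ≤ S.yb s) :
    ∑ k, (Y k) ^ 2 ≤ d * S.Yinf ^ 2 := by
  have h1 := Finset.sum_fiberwise_of_maps_to (s := (univ : Finset (Fin d)))
    (t := univ.image S.g) (g := S.g) (fun k hk => Finset.mem_image_of_mem _ hk)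
    (fun k => (Y k) ^ 2)
  rw [← h1]
  calc ∑ x ∈ univ.image S.g, ∑ k ∈ univ.filter (fun k : Fin d => S.g k = x), (Y k) ^ 2
      ≤ ∑ x ∈ univ.image S.g, S.dg x * S.Yinf ^ 2 := by
        apply Finset.sum_le_sum
        intro x _
        refine (h x).trans ?_
        apply mul_le_mul_of_nonneg_left _ (S.dg_nonneg x)
        exact pow_le_pow_left₀ (hyb _) (S.yb_le _) 2
    _ = d * S.Yinf ^ 2 := by
        rw [← Finset.sum_mul, S.sum_dg _ fun k => Finset.mem_image_of_mem _ (mem_univ k)]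

theorem sum_sq_le_R {j : ℕ} {Xl Xr Y z : Fin d → ℝ} (hY : ∀ k, 0 ≤ Y k)
    (hXl : ∀ b : ℕ, b ≤ d → (∀ k : Fin d, S.g k ≤ j + S.n → (k : ℕ) < b) →
      ∑ k ∈ univ.filter (fun k : Fin d => (k : ℕ) < b), (Xl k) ^ 2 ≤ S.Γ * b)
    (hXr : ∀ b : ℕ, b ≤ d → (∀ k : Fin d, S.g k ≤ j + S.n → (k : ℕ) < b) →
      ∑ k ∈ univ.filter (fun k : Fin d => (k : ℕ) < b), (Xr k) ^ 2 ≤ S.Γ * b)
    (hYs : ∀ x, ∑ k ∈ univ.filter (fun k : Fin d => S.g k = x), (Y k) ^ 2
      ≤ S.dg x * (S.yb (j + S.n + 1 - x)) ^ 2)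
    (hz : ∀ k, |z k| ≤ |Xl k| + |Xr k| + 2 * Y k) :
    ∑ k, (z k) ^ 2 ≤ S.R ^ 2 := by
  have hyb : ∀ s, 0 ≤ S.yb s := fun s => by
    unfold yb
    apply Finset.sum_nonneg
    intro t _
    unfold inc
    have hK : 0 ≤ S.K := by
      have := S.K_ge
      have := S.Γ_ge'
      linarith
    split_ifs
    · exact le_rfl
    · positivity
    · positivity
  have hfil : univ.filter (fun k : Fin d => (k : ℕ) < d) = univ := by
    ext k; simp
  have hΓ : 0 ≤ S.Γ := by have := S.Γ_ge'; linarith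
  have h1 := hXl d le_rfl fun k _ => k.2
  have h2 := hXr d le_rfl fun k _ => k.2
  rw [hfil] at h1 h2
  have h3 := S.sum_Y_sq hYs hyb
  have hR := S.R_nonneg
  have hYi := S.Yinf_nonneg
  have hd0 : (0 : ℝ) ≤ d := Nat.cast_nonneg _
  have n1 : nrm univ (fun k => |Xl k|) ≤ Real.sqrt d * Real.sqrt S.Γ := by
    rw [nrm_le_iff _ _ (by positivity)]
    simp only [sq_abs]
    rw [mul_pow, Real.sq_sqrt hd0, Real.sq_sqrt hΓ]
    linarith
  have n2 : nrm univ (fun k => |Xr k|) ≤ Real.sqrt d * Real.sqrt S.Γ := by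
    rw [nrm_le_iff _ _ (by positivity)]
    simp only [sq_abs]
    rw [mul_pow, Real.sq_sqrt hd0, Real.sq_sqrt hΓ]
    linarith
  have n3 : nrm univ Y ≤ Real.sqrt d * S.Yinf := by
    rw [nrm_le_iff _ _ (by positivity)]
    rw [mul_pow, Real.sq_sqrt hd0]
    exact h3
  have n4 : nrm univ z ≤ nrm univ (fun k => |Xl k| + |Xr k| + 2 * Y k) :=
    nrm_mono _ _ _ fun k _ => hz k
  have n5 : nrm univ (fun k => |Xl k| + |Xr k| + 2 * Y k)
      ≤ nrm univ (fun k => |Xl k|) + nrm univ (fun k => |Xr k|) + 2 * nrm univ Y := by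
    refine (nrm_add_le univ (fun k => |Xl k| + |Xr k|) (fun k => 2 * Y k)).trans ?_
    have := nrm_add_le univ (fun k => |Xl k|) (fun k => |Xr k|)
    have e := nrm_mul_left univ Y (c := 2) (by norm_num)
    rw [e]
    linarith
  have n6 : nrm univ z ≤ S.R := by
    rw [S.R_eq]
    nlinarith
  exact (nrm_le_iff _ _ hR).mp n6

theorem abs_hv_union_le {j : ℕ} {P A Q : Finset ι} (hQ : Q ⊆ A) (k : Fin d) (c : ℝ) :
    |∑ i ∈ P ∪ Q, S.hv j k i - c| ≤ |∑ i ∈ P, S.hv j k i - c| + ∑ i ∈ A, |S.hv j k i| := by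
  have h1 : ∑ i ∈ P ∪ Q, S.hv j k i = ∑ i ∈ P, S.hv j k i + ∑ i ∈ Q \ P, S.hv j k i := by
    rw [← Finset.union_sdiff_self_eq_union, Finset.sum_union Finset.disjoint_sdiff]
  have h2 : |∑ i ∈ Q \ P, S.hv j k i| ≤ ∑ i ∈ A, |S.hv j k i| :=
    (Finset.abs_sum_le_sum_abs _ _).trans
      (Finset.sum_le_sum_of_subset_of_nonneg (Finset.sdiff_subset.trans hQ)
        fun _ _ _ => abs_nonneg _)
  rw [h1]
  calc |∑ i ∈ P, S.hv j k i + ∑ i ∈ Q \ P, S.hv j k i - c|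
      = |(∑ i ∈ P, S.hv j k i - c) + ∑ i ∈ Q \ P, S.hv j k i| := by congr 1; ring
    _ ≤ _ := abs_add_le _ _
    _ ≤ _ := by linarith

/-- L8: consequence of the invariant: both endpoints are in the ball of radius `R` -/
theorem D_le (j : ℕ) (P A : Finset ι) (h3 : S.I3 j P A) :
    ∑ k, (S.D k P) ^ 2 ≤ S.R ^ 2 ∧ ∑ k, (S.D k (P ∪ A)) ^ 2 ≤ S.R ^ 2 := by
  obtain ⟨Xl, Xr, Y, κ, hY, hP, hPA, hhv, -, hXl, hXr, hYs⟩ := h3
  have hD : ∀ k (Q : Finset ι), S.D k Q = (∑ i ∈ Q, S.f j k i + κ k)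
      + (∑ i ∈ Q, S.hv j k i - κ k) := by
    intro k Q
    have : S.D k Q = ∑ i ∈ Q, S.f j k i + ∑ i ∈ Q, S.hv j k i := by
      unfold D
      rw [← Finset.sum_add_distrib]
      exact Finset.sum_congr rfl fun i _ => (S.f_add_hv j k i).symm
    rw [this]; ring
  constructor
  · apply S.sum_sq_le_R hY hXl hXr hYs
    intro k
    rw [hD k P]
    have h1 := abs_add_le (∑ i ∈ P, S.f j k i + κ k) (∑ i ∈ P, S.hv j k i - κ k)
    have h2 := hP k
    have h3 := hhv k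
    have h4 : 0 ≤ ∑ i ∈ A, |S.hv j k i| := Finset.sum_nonneg fun _ _ => abs_nonneg _
    linarith
  · apply S.sum_sq_le_R hY hXl hXr hYs
    intro k
    rw [hD k (P ∪ A)]
    have h1 := abs_add_le (∑ i ∈ P ∪ A, S.f j k i + κ k) (∑ i ∈ P ∪ A, S.hv j k i - κ k)
    have h2 := hPA k
    have h3 := hhv k
    have h4 := S.abs_hv_union_le (j := j) (P := P) (Subset.refl A) k (κ k)
    linarith

theorem eventually_heavy : ∃ J, ∀ j, J ≤ j → ∀ i k, S.v i k ≠ 0 → S.thr j k < (S.v i k) ^ 2 := by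
  have h : ∀ᶠ j in Filter.atTop, ∀ i k, S.v i k ≠ 0 → S.thr j k < (S.v i k) ^ 2 := by
    rw [Filter.eventually_all]
    intro i
    rw [Filter.eventually_all]
    intro k
    by_cases hv : S.v i k = 0
    · exact Filter.Eventually.of_forall fun _ h => absurd hv h
    · have h1 : Filter.Tendsto (fun j : ℕ => S.thr j k) Filter.atTop (nhds 0) := by
        unfold thr
        exact (tendsto_pow_atTop_nhds_zero_of_lt_one (by norm_num) (by norm_num)).comp
          (Filter.tendsto_sub_atTop_nat _)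
      have h2 : (0 : ℝ) < (S.v i k) ^ 2 := by positivity
      filter_upwards [h1.eventually_lt_const h2] with j hj _ using hj
  exact Filter.eventually_atTop.mp h

/-- L8': terminal level -/
theorem terminal : ∃ J, ∀ j, J ≤ j → ∀ (P A : Finset ι), Disjoint P A → S.I3 j P A →
    ∀ Q ⊆ A, ∑ k, (S.D k (P ∪ Q)) ^ 2 ≤ S.R ^ 2 := by
  obtain ⟨J, hJ⟩ := S.eventually_heavy
  refine ⟨J, ?_⟩
  intro j hj P A _ h3 Q hQ
  obtain ⟨Xl, Xr, Y, κ, hY, hP, hPA, hhv, -, hXl, hXr, hYs⟩ := h3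
  have hf : ∀ k i, S.f j k i = 0 := by
    intro k i
    unfold f
    split_ifs with h
    · by_contra hv
      exact absurd h (not_le.mpr (hJ j hj i k hv))
    · rfl
  have hv : ∀ k i, S.hv j k i = S.v i k := by
    intro k i
    have := S.f_add_hv j k i
    rw [hf k i] at this
    linarith
  apply S.sum_sq_le_R hY hXl hXr hYs
  intro k
  have hD : S.D k (P ∪ Q) = (∑ i ∈ P ∪ Q, S.hv j k i - κ k) + κ k := by
    unfold D
    simp only [hv]
    ring
  rw [hD]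
  have h1 := abs_add_le (∑ i ∈ P ∪ Q, S.hv j k i - κ k) (κ k)
  have h2 := hP k
  simp only [hf, Finset.sum_const_zero, zero_add] at h2
  have h3 := hhv k
  have h4 := S.abs_hv_union_le (j := j) (P := P) hQ k (κ k)
  linarith

end Data

end Vale.Agent.H22.ST
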