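import Vale.Agent.H22.ST.L3
import Vale.Agent.H22.ST.L4
import Vale.Agent.H22.ST.L4b
import Vale.Agent.H22.ST.L5
import Vale.Agent.H22.ST.L6
import Vale.Agent.H22.ST.L7
import Vale.Agent.H22.ST.L8

/-!
# Root, step and the ordering
-/

set_option linter.unusedSectionVars false

noncomputable section

open Finset

namespace Vale.Agent.H22.ST

namespace Data

variable {ι : Type} [Fintype ι] [DecidableEq ι] {d : ℕ} (S : Data ι d)

theorem sum_sq_expand (y : Fin d → ℝ) :
    ∑ i, (∑ k, y k * S.v i k) ^ 2 = ∑ k, S.lam k * (y k) ^ 2 := by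
  have h1 : ∀ i, (∑ k, y k * S.v i k) ^ 2 = ∑ k, ∑ l, y k * y l * (S.v i k * S.v i l) := by
    intro i
    rw [sq, Finset.sum_mul_sum]
    exact Finset.sum_congr rfl fun k _ => Finset.sum_congr rfl fun l _ => by ring
  rw [Finset.sum_congr rfl fun i _ => h1 i, Finset.sum_comm]
  apply Finset.sum_congr rfl
  intro k _
  rw [Finset.sum_comm]
  have h2 : ∀ l, ∑ i, y k * y l * (S.v i k * S.v i l)
      = if l = k then S.lam k * (y k) ^ 2 else 0 := by
    intro l
    rw [← Finset.mul_sum]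
    split_ifs with h
    · subst h
      unfold lam
      have : ∑ i, S.v i l * S.v i l = ∑ i, (S.v i l) ^ 2 :=
        Finset.sum_congr rfl fun i _ => by ring
      rw [this]
      ring
    · rw [S.gram k l (fun hh => h hh.symm), mul_zero]
  rw [Finset.sum_congr rfl fun l _ => h2 l]
  simp

/-- L9: root -/
theorem root : S.Inv 0 ∅ univ := by
  have hf : ∀ k i, S.f 0 k i = S.v i k := fun k i => S.f_of_le (Nat.zero_le _) i
  have hh : ∀ k i, S.hv 0 k i = 0 := fun k i => S.hv_of_le (Nat.zero_le _) i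
  have hΓ : (0 : ℝ) ≤ S.Γ := by
    have := S.Γ_ge'
    linarith
  refine ⟨Finset.disjoint_empty_left _, ?_, ?_, ?_⟩
  · intro y _
    have h1 := S.sum_sq_expand y
    have h2 : ∑ k, S.lam k / 2 ^ 0 * (y k) ^ 2 = ∑ k, S.lam k * (y k) ^ 2 :=
      Finset.sum_congr rfl fun k _ => by simp
    have h3 : S.rho 0 = 0 := by simp [rho]
    rw [h1, h2, h3]
    simp
  · intro x hx
    have hx0 : x = 0 := by omega
    subst hx0
    have hK : 0 ≤ S.K := by
      have := S.K_ge
      nlinarith
    have hc := S.c'_pos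
    have hYb : S.Yb (0 - 0) = 3 * S.c' + S.K := by
      have := S.a2_pos
      unfold Yb
      rw [if_pos (by omega)]
      simp
    rw [hYb]
    unfold dg
    rw [← nsmul_eq_mul, ← Finset.sum_const]
    apply Finset.sum_le_sum
    intro k hk
    rw [Finset.mem_filter] at hk
    have h1 : S.En 0 k univ = S.lam k := by
      unfold En lam
      exact Finset.sum_congr rfl fun i _ => by rw [hf]
    have h2 := S.g_le k
    rw [hk.2] at h2
    rw [h1]
    have h3 : S.lam k < S.c' := by
      unfold lam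
      simpa using h2
    have h4 := S.lam_nonneg k
    apply pow_le_pow_left₀ h4
    linarith
  · refine ⟨fun _ => 0, fun _ => 0, fun _ => 0, fun _ => 0, ?_, ?_, ?_, ?_, ?_, ?_, ?_, ?_⟩
    · intro k
      exact le_rfl
    · intro k
      simp
    · intro k
      have : ∑ i ∈ (∅ : Finset ι) ∪ univ, S.f 0 k i = 0 := by
        rw [Finset.empty_union, Finset.sum_congr rfl fun i _ => hf k i]
        exact S.sum_zero k
      rw [this]
      simp
    · intro k
      simp [hh]
    · intro k _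
      have : S.D k (∅ ∪ univ) = 0 := by
        unfold D
        rw [Finset.empty_union]
        exact S.sum_zero k
      refine ⟨?_, this.symm, rfl, rfl⟩
      simp [D]
    · intro b _ _
      simp only [ne_eq, OfNat.ofNat_ne_zero, not_false_eq_true, zero_pow, Finset.sum_const_zero]
      positivity
    · intro b _ _
      simp only [ne_eq, OfNat.ofNat_ne_zero, not_false_eq_true, zero_pow, Finset.sum_const_zero]
      positivity
    · intro x
      simp only [ne_eq, OfNat.ofNat_ne_zero, not_false_eq_true, zero_pow, Finset.sum_const_zero]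
      have := S.dg_nonneg x
      positivity

theorem step (j : ℕ) (P A : Finset ι) (h : S.Inv j P A) :
    ∃ A0 ⊆ A, S.Inv (j + 1) P A0 ∧ S.Inv (j + 1) (P ∪ A0) (A \ A0) := by
  obtain ⟨hd, h1, h2, h3⟩ := h
  obtain ⟨hD1, hD2⟩ := S.D_le j P A h3
  have ha : ∑ k, ((S.D k P + S.D k (P ∪ A)) / 2) ^ 2 ≤ S.R ^ 2 := by
    have h4 : ∑ k, ((S.D k P + S.D k (P ∪ A)) / 2) ^ 2
        ≤ ∑ k, ((S.D k P) ^ 2 / 2 + (S.D k (P ∪ A)) ^ 2 / 2) := by
      apply Finset.sum_le_sum
      intro k _
      nlinarith [sq_nonneg (S.D k P - S.D k (P ∪ A))]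
    rw [Finset.sum_add_distrib, ← Finset.sum_div, ← Finset.sum_div] at h4
    linarith
  obtain ⟨β, hβ⟩ := S.exists_bias j A h1 (fun k => (S.D k P + S.D k (P ∪ A)) / 2) ha
  have hB := S.B_le j
  obtain ⟨ξ, hξ, hgood⟩ := S.exists_round j A h1 h2 (fun i => 1 / 2 + β i) (by
    intro i _
    have h5 := abs_le.mp (hβ.b3 i)
    constructor <;> linarith)
  set δ : ι → ℝ := fun i => ξ i - (1 / 2 + β i) with hδ
  set A0 := A.filter (fun i => ξ i = 1) with hA0
  have hsub : A0 ⊆ A := Finset.filter_subset _ _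
  have hind : ∀ i ∈ A, (if i ∈ A0 then (1 : ℝ) else 0) = 1 / 2 + β i + δ i := by
    intro i hi
    have h6 : 1 / 2 + β i + δ i = ξ i := by
      rw [hδ]
      ring
    rw [h6]
    rcases hξ i hi with h7 | h7
    · rw [if_neg, h7]
      rw [hA0, Finset.mem_filter]
      rintro ⟨_, h8⟩
      rw [h7] at h8
      norm_num at h8
    · rw [if_pos, h7]
      rw [hA0, Finset.mem_filter]
      exact ⟨hi, h7⟩
  have hind' : ∀ i ∈ A, (if i ∈ A \ A0 then (1 : ℝ) else 0) = 1 / 2 + (- β i) + (- δ i) := by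
    intro i hi
    have h8 := hind i hi
    by_cases hi0 : i ∈ A0
    · rw [if_pos hi0] at h8
      rw [if_neg (fun hh => (Finset.mem_sdiff.mp hh).2 hi0)]
      linarith
    · rw [if_neg hi0] at h8
      rw [if_pos (Finset.mem_sdiff.mpr ⟨hi, hi0⟩)]
      linarith
  have hβn : ∀ i, |- β i| ≤ S.B j := fun i => by rw [abs_neg]; exact hβ.b3 i
  have hgn : S.Good j A (fun i => - δ i) := Good.neg S hgood
  have hch := S.I3_children j P A A0 hd hsub h2 h3 β δ hβ hgood hind
  refine ⟨A0, hsub, ⟨?_, ?_, ?_, hch.1⟩, ⟨?_, ?_, ?_, hch.2⟩⟩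
  · exact hd.mono_right hsub
  · exact S.I1_child j A A0 hsub h1 β δ hβ.b3 hgood hind
  · exact S.I2_child j A A0 hsub h1 h2 β δ hβ.b3 hgood hind
  · rw [Finset.disjoint_union_left]
    exact ⟨hd.mono_right Finset.sdiff_subset, Finset.disjoint_sdiff⟩
  · exact S.I1_child j A (A \ A0) Finset.sdiff_subset h1 (fun i => - β i) (fun i => - δ i)
      hβn hgn hind'
  · exact S.I2_child j A (A \ A0) Finset.sdiff_subset h1 h2 (fun i => - β i) (fun i => - δ i)
      hβn hgn hind'

theorem exists_order_aux {J : ℕ} (hJ : ∀ j, J ≤ j → ∀ (P A : Finset ι), Disjoint P A →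
    S.I3 j P A → ∀ Q ⊆ A, ∑ k, (S.D k (P ∪ Q)) ^ 2 ≤ S.R ^ 2) :
    ∀ m j : ℕ, J ≤ j + m → ∀ P A : Finset ι, S.Inv j P A →
      ∃ l : List ι, l.Nodup ∧ l.toFinset = A ∧
        ∀ t, ∑ k, (S.D k (P ∪ (l.take t).toFinset)) ^ 2 ≤ S.R ^ 2 := by
  intro m
  induction m with
  | zero =>
    intro j hj P A h
    refine ⟨A.toList, A.nodup_toList, A.toList_toFinset, ?_⟩
    intro t
    apply hJ j (by omega) P A h.1 h.2.2.2
    intro i hi
    rw [List.mem_toFinset] at hi
    exact Finset.mem_toList.mp (List.mem_of_mem_take hi)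
  | succ m ih =>
    intro j hj P A h
    obtain ⟨A0, hsub, hi0, hi1⟩ := S.step j P A h
    obtain ⟨l0, hn0, ht0, hb0⟩ := ih (j + 1) (by omega) P A0 hi0
    obtain ⟨l1, hn1, ht1, hb1⟩ := ih (j + 1) (by omega) (P ∪ A0) (A \ A0) hi1
    refine ⟨l0 ++ l1, ?_, ?_, ?_⟩
    · rw [List.nodup_append']
      refine ⟨hn0, hn1, ?_⟩
      intro i hi0' hi1'
      have e0 : i ∈ A0 := by
        rw [← ht0]
        exact List.mem_toFinset.mpr hi0'
      have e1 : i ∈ A \ A0 := by
        rw [← ht1]
        exact List.mem_toFinset.mpr hi1'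
      exact (Finset.mem_sdiff.mp e1).2 e0
    · rw [List.toFinset_append, ht0, ht1]
      exact Finset.union_sdiff_of_subset hsub
    · intro t
      rw [List.take_append, List.toFinset_append]
      rcases Nat.le_total t l0.length with ht | ht
      · have : t - l0.length = 0 := by omega
        rw [this]
        simpa using hb0 t
      · rw [List.take_of_length_le ht, ht0, ← Finset.union_assoc]
        exact hb1 _

/-- L10: the ordering -/
theorem exists_order : ∃ l : List ι, l.Nodup ∧ l.toFinset = univ ∧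
    ∀ t, ∑ k, (S.D k (l.take t).toFinset) ^ 2 ≤ S.R ^ 2 := by
  obtain ⟨J, hJ⟩ := S.terminal
  obtain ⟨l, h1, h2, h3⟩ := S.exists_order_aux hJ J 0 (by omega) ∅ univ S.root
  refine ⟨l, h1, h2, ?_⟩
  intro t
  have := h3 t
  rwa [Finset.empty_union] at this

end Data

end Vale.Agent.H22.ST
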